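import Vale.Agent.P054.J.Defs

/-!
Block J, file Handicap: the choice of the handicaps by integer minimisation.

PROOF.  For `γ : ι → ℕ` put `m_t(γ) g = t - γ g` and `Y_l(γ) = ∑_{t < R} D l n (m_t γ)` for any
`R` with `n + γ g + 1 ≤ R` for some `g ∈ S l` (larger `R` add zeros, by `htop`), and
`Z(γ) = c * ∑_{g ∈ G} γ g - ∑_{l ∈ K} U l * Y_l(γ)` (an integer).
(1) `Y_l(γ) ≤ T n * (n + 1 + min_{S l} γ)` (`htop`, `hanti`, `hzero`).  Layer cake: with
`A_j = {g ∈ G : j ≤ γ g}`, `∑_{g ∈ G} γ g = ∑_{j ≥ 1} |A_j|`, `min_{S l} γ = ∑_{j ≥ 1} [S l ⊆ A_j]`,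
so `hHall` gives `Z(γ) ≥ -T n * (n + 1) * ∑_{l ∈ K} U l`.  Hence `Z` has a minimiser `γ`
(integer valued, bounded below).
(2) For `g ∈ G`: `Z(γ + e_g) ≥ Z(γ)` says
`∑_{l ∈ K, g ∈ S l} U l * (Y_l(γ + e_g) - Y_l(γ)) ≤ c` (for `g ∉ S l` the difference is 0 by `hcongr`).
(3) Fix `l` with `g ∈ S l`.  For every `t`, by `hsub` (`m_t γ ≤ mlt γ t g`, equal at `g`),
`D n (mlt γ t g) - D n (mle γ t g) ≤ D n (m_t γ) - D n (m_t γ, g := t + 1 - γ g)`
(both sides are 0 when `t < γ g`); for `t ≥ γ g` by `hshift` and again `hsub` (now for degree `n + h`,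
`t + 1 - γ g' ≤ (t - γ g') + 1`) this is
`≤ D (n+h) (m_{t+1} γ, g := t - γ g) - D (n+h) (m_{t+1} γ)`
`= D (n+h) (m_{t+1}(γ + e_g)) - D (n+h) (m_{t+1} γ)`  (`t + 1 - (γ g + 1) = t - γ g`).
(4) Put `a = m_t γ`, `a' = m_{t+1}(γ + e_g) `, `a'' = m_{t+1} γ`; `a ≤ a' ≤ a''`
(at `g`: `t - γ g`, `t - γ g`, `t + 1 - γ g`).  By `hmono` for `a ≤ a'`:
`(D' a' - D' a'') - (D a' - D a'') ≤ (D' a - D' a'') - (D a - D a'')` with `D' = D l (n+h)`,
`D = D l n`.  Summing over `t < R` the right side telescopes to `T (n+h) - T n` (the last terms are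
zero for large `R`; enlarge `R`), and `∑_t (D a' - D a'') = Y_l(γ + e_g) - Y_l(γ)`
(the term `t' = 0` is `T n - T n = 0`).  So `ball (D l n) γ R g ≤ Y_l(γ+e_g) - Y_l(γ) + (T (n+h) - T n)`.
Multiply by `U l`, sum over `l`, use (2).  For other `R` in the conclusion: terms with
`t ≥ n + 1 + γ g` vanish.
-/

set_option linter.all false

namespace Vale.Agent.P054.J

open Finset

/-- the orders at time `t` -/
def hcM {ι : Type} (γ : ι → ℕ) (t : ℕ) : ι → ℕ := fun g => t - γ g

/-- sum of the dimensions up to time `R` -/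
def hcY {ι : Type} (D : (ι → ℕ) → ℕ) (γ : ι → ℕ) (R : ℕ) : ℕ :=
  ∑ t ∈ Finset.range R, D (hcM γ t)

theorem hc_sum_eq {f : ℕ → ℕ} {a : ℕ} (h : ∀ t, a ≤ t → f t = 0) {R : ℕ} (hR : a ≤ R) :
    ∑ t ∈ Finset.range R, f t = ∑ t ∈ Finset.range a, f t := by
  symm
  apply Finset.sum_subset
  · intro x hx
    rw [Finset.mem_range] at hx ⊢
    omega
  · intro x _ hx
    rw [Finset.mem_range] at hx
    exact h x (by omega)

theorem hc_step {ι : Type} [LinearOrder ι] (D D' : (ι → ℕ) → ℕ) (γ : ι → ℕ) (g : ι) (t : ℕ)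
    (hanti' : ∀ m m', (∀ g, m g ≤ m' g) → D' m' ≤ D' m)
    (hsub : ∀ m m' g, (∀ g', m g' ≤ m' g') → m g = m' g →
      D m' + D (Function.update m g (m g + 1)) ≤ D m + D (Function.update m' g (m' g + 1)))
    (hsub' : ∀ m m' g, (∀ g', m g' ≤ m' g') → m g = m' g →
      D' m' + D' (Function.update m g (m g + 1)) ≤ D' m + D' (Function.update m' g (m' g + 1)))
    (hshift : ∀ m,
      D m + D' (Function.update (fun g' => m g' + 1) g (m g + 1)) ≤
        D' (Function.update (fun g' => m g' + 1) g (m g)) + D (Function.update m g (m g + 1))) :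
    (D (mlt γ t g) : ℤ) - D (mle γ t g) ≤
      D' (hcM (Function.update γ g (γ g + 1)) (t + 1)) - D' (hcM γ (t + 1)) := by
  rcases Nat.lt_or_ge t (γ g) with h | h
  · have h1 : mlt γ t g = mle γ t g := by
      funext g'
      simp only [mlt, mle]
      rcases lt_trichotomy g' g with h2 | h2 | h2
      · rw [if_pos h2, if_pos h2.le]
      · subst h2
        rw [if_neg (lt_irrefl _), if_pos le_rfl]
        omega
      · rw [if_neg (not_lt.2 h2.le), if_neg (not_le.2 h2)]
    rw [h1, sub_self]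
    have h3 : D' (hcM γ (t + 1)) ≤ D' (hcM (Function.update γ g (γ g + 1)) (t + 1)) := by
      apply hanti'
      intro g'
      simp only [hcM, Function.update_apply]
      split_ifs with h4
      · subst h4; omega
      · omega
    have : ((D' (hcM γ (t + 1)) : ℕ) : ℤ) ≤ D' (hcM (Function.update γ g (γ g + 1)) (t + 1)) := by
      exact_mod_cast h3
    linarith
  · have e1 : Function.update (mlt γ t g) g (mlt γ t g g + 1) = mle γ t g := by
      funext g'
      simp only [mlt, mle, Function.update_apply, lt_irrefl, if_false]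
      rcases lt_trichotomy g' g with h2 | h2 | h2
      · rw [if_neg h2.ne, if_pos h2, if_pos h2.le]
      · subst h2
        rw [if_pos rfl, if_pos le_rfl]
        omega
      · rw [if_neg h2.ne', if_neg (not_lt.2 h2.le), if_neg (not_le.2 h2)]
    have s1 := hsub (hcM γ t) (mlt γ t g) g (by
      intro g'
      simp only [hcM, mlt]
      split_ifs <;> omega) (by simp [hcM, mlt])
    rw [e1] at s1
    have s2 := hshift (hcM γ t)
    have s3 := hsub' (hcM (Function.update γ g (γ g + 1)) (t + 1))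
      (Function.update (fun g' => hcM γ t g' + 1) g (hcM γ t g)) g (by
      intro g'
      simp only [hcM, Function.update_apply]
      split_ifs with h4
      · subst h4; omega
      · omega) (by
      simp only [hcM, Function.update_self]
      omega)
    have e2 : Function.update (hcM (Function.update γ g (γ g + 1)) (t + 1)) g
        (hcM (Function.update γ g (γ g + 1)) (t + 1) g + 1) = hcM γ (t + 1) := by
      funext g'
      simp only [hcM, Function.update_apply]
      split_ifs with h4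
      · subst h4; omega
      · rfl
    have e3 : Function.update (Function.update (fun g' => hcM γ t g' + 1) g (hcM γ t g)) g
        (Function.update (fun g' => hcM γ t g' + 1) g (hcM γ t g) g + 1) =
        Function.update (fun g' => hcM γ t g' + 1) g (hcM γ t g + 1) := by
      rw [Function.update_idem, Function.update_self]
    rw [e2, e3] at s3
    have t1 : ((D (mlt γ t g) : ℕ) : ℤ) + D (Function.update (hcM γ t) g (hcM γ t g + 1)) ≤
      D (hcM γ t) + D (mle γ t g) := by exact_mod_cast s1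
    have t2 : ((D (hcM γ t) : ℕ) : ℤ) +
        D' (Function.update (fun g' => hcM γ t g' + 1) g (hcM γ t g + 1)) ≤
        D' (Function.update (fun g' => hcM γ t g' + 1) g (hcM γ t g)) +
          D (Function.update (hcM γ t) g (hcM γ t g + 1)) := by exact_mod_cast s2
    have t3 : ((D' (Function.update (fun g' => hcM γ t g' + 1) g (hcM γ t g)) : ℕ) : ℤ) +
        D' (hcM γ (t + 1)) ≤ D' (hcM (Function.update γ g (γ g + 1)) (t + 1)) +
          D' (Function.update (fun g' => hcM γ t g' + 1) g (hcM γ t g + 1)) := by exact_mod_cast s3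
    linarith

theorem hc_tele (f : ℕ → ℤ) (R : ℕ) :
    ∑ t ∈ Finset.range R, (f t - f (t + 1)) = f 0 - f R := by
  induction R with
  | zero => simp
  | succ R ih => rw [Finset.sum_range_succ, ih]; ring

theorem hc_ball {ι : Type} [LinearOrder ι] (D D' : (ι → ℕ) → ℕ) (γ : ι → ℕ) (g : ι) (R : ℕ)
    (T T' : ℕ)
    (hanti : ∀ m m', (∀ g, m g ≤ m' g) → D m' ≤ D m)
    (hanti' : ∀ m m', (∀ g, m g ≤ m' g) → D' m' ≤ D' m)
    (hsub : ∀ m m' g, (∀ g', m g' ≤ m' g') → m g = m' g →
      D m' + D (Function.update m g (m g + 1)) ≤ D m + D (Function.update m' g (m' g + 1)))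
    (hsub' : ∀ m m' g, (∀ g', m g' ≤ m' g') → m g = m' g →
      D' m' + D' (Function.update m g (m g + 1)) ≤ D' m + D' (Function.update m' g (m' g + 1)))
    (hmono : ∀ m m', (∀ g, m g ≤ m' g) → D m + D' m' ≤ D' m + D m')
    (hshift : ∀ m,
      D m + D' (Function.update (fun g' => m g' + 1) g (m g + 1)) ≤
        D' (Function.update (fun g' => m g' + 1) g (m g)) + D (Function.update m g (m g + 1)))
    (hzero : D (fun _ => 0) = T) (hzero' : D' (fun _ => 0) = T') :
    (ball D γ R g : ℤ) ≤ T' - T + hcY D (Function.update γ g (γ g + 1)) (R + 1) - hcY D γ R := by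
  have h1 : (ball D γ R g : ℤ) = ∑ t ∈ Finset.range R, ((D (mlt γ t g) : ℤ) - D (mle γ t g)) := by
    rw [ball, Nat.cast_sum]
    refine Finset.sum_congr rfl fun t _ => ?_
    rw [Nat.cast_sub]
    apply hanti
    intro g'
    simp only [mlt, mle]
    rcases lt_trichotomy g' g with h2 | h2 | h2
    · rw [if_pos h2, if_pos h2.le]
    · subst h2
      rw [if_neg (lt_irrefl _), if_pos le_rfl]
      omega
    · rw [if_neg (not_lt.2 h2.le), if_neg (not_le.2 h2)]
  have h2 : ∀ t, (D (mlt γ t g) : ℤ) - D (mle γ t g) ≤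
      ((D' (hcM γ t) : ℤ) - D' (hcM γ (t + 1))) +
        ((D (hcM (Function.update γ g (γ g + 1)) (t + 1)) : ℤ) - D (hcM γ t)) := by
    intro t
    have s1 := hc_step D D' γ g t hanti' hsub hsub' hshift
    have s2 := hmono (hcM γ t) (hcM (Function.update γ g (γ g + 1)) (t + 1)) (by
      intro g'
      simp only [hcM, Function.update_apply]
      split_ifs with h4
      · subst h4; omega
      · omega)
    have t2 : ((D (hcM γ t) : ℕ) : ℤ) + D' (hcM (Function.update γ g (γ g + 1)) (t + 1)) ≤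
      D' (hcM γ t) + D (hcM (Function.update γ g (γ g + 1)) (t + 1)) := by exact_mod_cast s2
    linarith
  have h3 : ∀ γ' : ι → ℕ, hcM γ' 0 = fun _ => 0 := by
    intro γ'
    funext g'
    simp [hcM]
  rw [h1]
  refine (Finset.sum_le_sum fun t _ => h2 t).trans ?_
  rw [Finset.sum_add_distrib, hc_tele (fun t => (D' (hcM γ t) : ℤ)), Finset.sum_sub_distrib]
  have h4 : (hcY D (Function.update γ g (γ g + 1)) (R + 1) : ℤ) =
      ∑ t ∈ Finset.range R, (D (hcM (Function.update γ g (γ g + 1)) (t + 1)) : ℤ) + T := by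
    rw [hcY, Finset.sum_range_succ']
    push_cast
    rw [h3, hzero]
  have h5 : (hcY D γ R : ℤ) = ∑ t ∈ Finset.range R, (D (hcM γ t) : ℤ) := by
    rw [hcY]; push_cast; rfl
  have h6 : (D' (hcM γ 0) : ℤ) = T' := by rw [h3, hzero']
  have h7 : (0 : ℤ) ≤ D' (hcM γ R) := Nat.cast_nonneg _
  rw [h4, h5]
  simp only [h6]
  linarith

theorem handicap {ι κ : Type} [LinearOrder ι] [DecidableEq κ]
    (G : Finset ι) (K : Finset κ) (S : κ → Finset ι) (hS : ∀ l ∈ K, (S l).Nonempty)
    (hSG : ∀ l ∈ K, S l ⊆ G)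
    (D : κ → ℕ → (ι → ℕ) → ℕ) (T : ℕ → ℕ) (n h : ℕ) (U : κ → ℕ) (c : ℕ)
    (hcongr : ∀ l ∈ K, ∀ n m m', (∀ g ∈ S l, m g = m' g) → D l n m = D l n m')
    (hanti : ∀ l ∈ K, ∀ n m m', (∀ g, m g ≤ m' g) → D l n m' ≤ D l n m)
    (hsub : ∀ l ∈ K, ∀ n m m' g, (∀ g', m g' ≤ m' g') → m g = m' g →
      D l n m' + D l n (Function.update m g (m g + 1)) ≤
        D l n m + D l n (Function.update m' g (m' g + 1)))
    (hmono : ∀ l ∈ K, ∀ n n' m m', n ≤ n' → (∀ g, m g ≤ m' g) →
      D l n m + D l n' m' ≤ D l n' m + D l n m')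
    (hshift : ∀ l ∈ K, ∀ m, ∀ g ∈ S l,
      D l n m + D l (n + h) (Function.update (fun g' => m g' + 1) g (m g + 1)) ≤
        D l (n + h) (Function.update (fun g' => m g' + 1) g (m g)) +
          D l n (Function.update m g (m g + 1)))
    (hzero : ∀ l ∈ K, ∀ n, D l n (fun _ => 0) = T n)
    (htop : ∀ l ∈ K, ∀ n m, ∀ g ∈ S l, n + 1 ≤ m g → D l n m = 0)
    (hHall : ∀ A ⊆ G, T n * ∑ l ∈ K.filter (fun l => S l ⊆ A), U l ≤ c * A.card) :
    ∃ γ : ι → ℕ, ∀ R, (∀ g ∈ G, n + γ g + 2 ≤ R) → ∀ g ∈ G,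
      ∑ l ∈ K.filter (fun l => g ∈ S l), U l * ball (D l n) γ R g ≤
        c + (∑ l ∈ K.filter (fun l => g ∈ S l), U l) * (T (n + h) - T n) := by
  classical
  -- the potential
  let Y : κ → (ι → ℕ) → ℕ := fun l γ => hcY (D l n) γ (n + 2 + ∑ g ∈ G, γ g)
  let Z : (ι → ℕ) → ℤ := fun γ => (c : ℤ) * ∑ g ∈ G, (γ g : ℤ) - ∑ l ∈ K, (U l : ℤ) * Y l γ
  have hYeq : ∀ l ∈ K, ∀ γ : ι → ℕ, ∀ g ∈ S l, ∀ R, n + 1 + γ g ≤ R →
      hcY (D l n) γ R = Y l γ := by
    intro l hl γ g hg R hR
    have h0 : ∀ t, n + 1 + γ g ≤ t → D l n (hcM γ t) = 0 := by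
      intro t ht
      apply htop l hl n _ g hg
      simp only [hcM]
      omega
    have h1 : γ g ≤ ∑ g ∈ G, γ g := Finset.single_le_sum (f := γ) (fun _ _ => Nat.zero_le _)
      (hSG l hl hg)
    change ∑ t ∈ Finset.range R, D l n (hcM γ t) =
      ∑ t ∈ Finset.range (n + 2 + ∑ g ∈ G, γ g), D l n (hcM γ t)
    have h2 : n + 1 + γ g ≤ n + 2 + ∑ g ∈ G, γ g := by omega
    rw [hc_sum_eq h0 hR, hc_sum_eq h0 h2]
  -- lower bound
  let B : ℕ := T n * (n + 1) * ∑ l ∈ K, U l
  have hlow : ∀ γ : ι → ℕ, -(B : ℤ) ≤ Z γ := by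
    intro γ
    -- the minimum over `S l`
    have hmin : ∀ l : κ, ∃ μ : ℕ, l ∈ K → (∃ g ∈ S l, γ g = μ) ∧ ∀ g ∈ S l, μ ≤ γ g := by
      intro l
      by_cases hl : l ∈ K
      · obtain ⟨g, hg, hmin⟩ := Finset.exists_min_image (S l) γ (hS l hl)
        exact ⟨γ g, fun _ => ⟨⟨g, hg, rfl⟩, hmin⟩⟩
      · exact ⟨0, fun h => absurd h hl⟩
    choose μ hμ using hmin
    have hY : ∀ l ∈ K, Y l γ ≤ T n * (n + 1 + μ l) := by
      intro l hl
      obtain ⟨⟨g, hg, hgμ⟩, -⟩ := hμ l hl
      rw [← hYeq l hl γ g hg (n + 1 + μ l) (by omega)]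
      calc hcY (D l n) γ (n + 1 + μ l) ≤ ∑ t ∈ Finset.range (n + 1 + μ l), T n := by
            refine Finset.sum_le_sum fun t _ => ?_
            rw [← hzero l hl n]
            exact hanti l hl n _ _ (fun g => Nat.zero_le _)
        _ = T n * (n + 1 + μ l) := by
            rw [Finset.sum_const, Finset.card_range, smul_eq_mul, mul_comm]
    let N : ℕ := ∑ g ∈ G, γ g
    let A : ℕ → Finset ι := fun j => G.filter (fun g => j < γ g)
    have hcard : ∑ j ∈ Finset.range N, (A j).card ≤ ∑ g ∈ G, γ g := by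
      have h1 : ∑ j ∈ Finset.range N, (A j).card =
          ∑ g ∈ G, ((Finset.range N).filter (fun j => j < γ g)).card := by
        simp only [A, Finset.card_filter]
        rw [Finset.sum_comm]
      rw [h1]
      refine Finset.sum_le_sum fun g _ => ?_
      calc ((Finset.range N).filter (fun j => j < γ g)).card ≤ (Finset.range (γ g)).card := by
            apply Finset.card_le_card
            intro j hj
            rw [Finset.mem_filter] at hj
            exact Finset.mem_range.2 hj.2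
        _ = γ g := Finset.card_range _
    have hμN : ∀ l ∈ K, μ l ≤ ∑ j ∈ Finset.range N, (if S l ⊆ A j then 1 else 0) := by
      intro l hl
      obtain ⟨⟨g, hg, hgμ⟩, hle⟩ := hμ l hl
      have h1 : γ g ≤ N := Finset.single_le_sum (f := γ) (fun _ _ => Nat.zero_le _) (hSG l hl hg)
      rw [← Finset.card_filter]
      calc μ l = (Finset.range (μ l)).card := (Finset.card_range _).symm
        _ ≤ _ := by
            apply Finset.card_le_card
            intro j hj
            rw [Finset.mem_range] at hj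
            rw [Finset.mem_filter, Finset.mem_range]
            refine ⟨by omega, fun g' hg' => ?_⟩
            rw [Finset.mem_filter]
            exact ⟨hSG l hl hg', lt_of_lt_of_le hj (hle g' hg')⟩
    have hmain : T n * ∑ l ∈ K, U l * μ l ≤ c * ∑ g ∈ G, γ g := by
      calc T n * ∑ l ∈ K, U l * μ l
          ≤ T n * ∑ l ∈ K, U l * ∑ j ∈ Finset.range N, (if S l ⊆ A j then 1 else 0) :=
            Nat.mul_le_mul_left _ (Finset.sum_le_sum fun l hl =>
              Nat.mul_le_mul_left _ (hμN l hl))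
        _ = ∑ j ∈ Finset.range N, T n * ∑ l ∈ K.filter (fun l => S l ⊆ A j), U l := by
            rw [← Finset.mul_sum]
            congr 1
            simp only [Finset.mul_sum, Finset.sum_filter]
            rw [Finset.sum_comm]
            refine Finset.sum_congr rfl fun j _ => Finset.sum_congr rfl fun l _ => ?_
            split_ifs <;> simp
        _ ≤ ∑ j ∈ Finset.range N, c * (A j).card :=
            Finset.sum_le_sum fun j _ => hHall (A j) (Finset.filter_subset _ _)
        _ = c * ∑ j ∈ Finset.range N, (A j).card := by rw [Finset.mul_sum]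
        _ ≤ c * ∑ g ∈ G, γ g := Nat.mul_le_mul_left _ hcard
    have hsumY : ∑ l ∈ K, U l * Y l γ ≤ B + c * ∑ g ∈ G, γ g := by
      calc ∑ l ∈ K, U l * Y l γ ≤ ∑ l ∈ K, U l * (T n * (n + 1 + μ l)) :=
            Finset.sum_le_sum fun l hl => Nat.mul_le_mul_left _ (hY l hl)
        _ = B + T n * ∑ l ∈ K, U l * μ l := by
            simp only [B, Finset.mul_sum]
            rw [← Finset.sum_add_distrib]
            refine Finset.sum_congr rfl fun l _ => ?_
            ring
        _ ≤ B + c * ∑ g ∈ G, γ g := Nat.add_le_add_left hmain _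
    have h2 : ((∑ l ∈ K, U l * Y l γ : ℕ) : ℤ) ≤ ((B + c * ∑ g ∈ G, γ g : ℕ) : ℤ) := by
      exact_mod_cast hsumY
    push_cast at h2
    change -(B : ℤ) ≤ (c : ℤ) * ∑ g ∈ G, (γ g : ℤ) - ∑ l ∈ K, (U l : ℤ) * (Y l γ : ℤ)
    linarith
  -- the minimiser
  obtain ⟨γ, hγ⟩ : ∃ γ : ι → ℕ, ∀ γ', Z γ ≤ Z γ' := by
    let f : (ι → ℕ) → ℕ := fun γ => (Z γ + B).toNat
    refine ⟨Function.argmin f, fun γ' => ?_⟩
    have h1 : f (Function.argmin f) ≤ f γ' := Function.argmin_le f γ'
    have h2 := hlow (Function.argmin f)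
    have h3 := hlow γ'
    change (Z (Function.argmin f) + B).toNat ≤ (Z γ' + B).toNat at h1
    omega
  refine ⟨γ, fun R hR g hg => ?_⟩
  let γ' : ι → ℕ := Function.update γ g (γ g + 1)
  have hsum : ∑ x ∈ G, (γ' x : ℤ) = ∑ x ∈ G, (γ x : ℤ) + 1 := by
    have h1 : ∀ x, (γ' x : ℤ) = γ x + (if x = g then 1 else 0) := by
      intro x
      simp only [γ', Function.update_apply]
      split_ifs with h
      · subst h; push_cast; rfl
      · simp
    simp only [h1]
    rw [Finset.sum_add_distrib, Finset.sum_ite_eq' G g, if_pos hg]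
  have hZ := hγ γ'
  have hZ1 : (∑ l ∈ K, (U l : ℤ) * ((Y l γ' : ℤ) - Y l γ)) ≤ c := by
    change (c : ℤ) * ∑ g ∈ G, (γ g : ℤ) - ∑ l ∈ K, (U l : ℤ) * (Y l γ : ℤ) ≤
      (c : ℤ) * ∑ g ∈ G, (γ' g : ℤ) - ∑ l ∈ K, (U l : ℤ) * (Y l γ' : ℤ) at hZ
    rw [hsum] at hZ
    simp only [mul_sub, Finset.sum_sub_distrib]
    linarith
  -- flats not containing `g`
  have hne : ∀ l ∈ K, 0 ≤ (U l : ℤ) * ((Y l γ' : ℤ) - Y l γ) := by
    intro l hl
    obtain ⟨g₁, hg₁⟩ := hS l hl
    have hle : ∀ x, γ x ≤ γ' x := by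
      intro x
      simp only [γ', Function.update_apply]
      split_ifs with h
      · subst h; omega
      · exact le_rfl
    have h1 : hcY (D l n) γ (n + 1 + γ' g₁) ≤ hcY (D l n) γ' (n + 1 + γ' g₁) := by
      refine Finset.sum_le_sum fun t _ => hanti l hl n _ _ fun x => ?_
      have := hle x
      simp only [hcM]
      omega
    rw [hYeq l hl γ g₁ hg₁ _ (by have := hle g₁; omega), hYeq l hl γ' g₁ hg₁ _ le_rfl] at h1
    have h2 : ((Y l γ : ℕ) : ℤ) ≤ Y l γ' := by exact_mod_cast h1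
    exact mul_nonneg (Nat.cast_nonneg _) (by linarith)
  have hZ2 : (∑ l ∈ K.filter (fun l => g ∈ S l), (U l : ℤ) * ((Y l γ' : ℤ) - Y l γ)) ≤ c :=
    (Finset.sum_le_sum_of_subset_of_nonneg (Finset.filter_subset _ _)
      (fun l hl _ => hne l hl)).trans hZ1
  have hball : ∀ l ∈ K.filter (fun l => g ∈ S l), (U l : ℤ) * (ball (D l n) γ R g : ℤ) ≤
      (U l : ℤ) * ((T (n + h) - T n : ℕ) : ℤ) + (U l : ℤ) * ((Y l γ' : ℤ) - Y l γ) := by
    intro l hl
    rw [Finset.mem_filter] at hl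
    obtain ⟨hl, hgl⟩ := hl
    have hRg := hR g hg
    have h1 := hc_ball (D l n) (D l (n + h)) γ g R (T n) (T (n + h)) (hanti l hl n)
      (hanti l hl (n + h)) (hsub l hl n) (hsub l hl (n + h))
      (fun m m' hm => hmono l hl n (n + h) m m' (Nat.le_add_right _ _) hm)
      (fun m => hshift l hl m g hgl) (hzero l hl n) (hzero l hl (n + h))
    have h2 : hcY (D l n) γ' (R + 1) = Y l γ' := by
      apply hYeq l hl γ' g hgl
      simp only [γ', Function.update_self]
      omega
    have h3 : hcY (D l n) γ R = Y l γ := hYeq l hl γ g hgl R (by omega)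
    have h4 : T n ≤ T (n + h) := by
      have h5 := hmono l hl n (n + h) (fun _ => 0) (fun _ => n + h + 1) (Nat.le_add_right _ _)
        (fun _ => Nat.zero_le _)
      rw [hzero l hl, hzero l hl, htop l hl (n + h) _ g hgl (by omega),
        htop l hl n _ g hgl (by omega)] at h5
      omega
    rw [← mul_add]
    apply mul_le_mul_of_nonneg_left _ (Nat.cast_nonneg _)
    rw [Nat.cast_sub h4]
    have h6 : (hcY (D l n) (Function.update γ g (γ g + 1)) (R + 1) : ℤ) = Y l γ' := by
      exact_mod_cast h2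
    have h7 : (hcY (D l n) γ R : ℤ) = Y l γ := by exact_mod_cast h3
    rw [h6, h7] at h1
    linarith
  have hfin : (∑ l ∈ K.filter (fun l => g ∈ S l), (U l : ℤ) * (ball (D l n) γ R g : ℤ)) ≤
      c + (∑ l ∈ K.filter (fun l => g ∈ S l), (U l : ℤ)) * ((T (n + h) - T n : ℕ) : ℤ) := by
    refine (Finset.sum_le_sum hball).trans ?_
    rw [Finset.sum_add_distrib, ← Finset.sum_mul]
    linarith
  exact_mod_cast hfin

end Vale.Agent.P054.J
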