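import Vale.Agent.P054.J.Defs

/-! Block J, file LimitStep: divide by n^6 and let n tend to infinity
(T n / n^3 -> 1/6, (TT (n+J) - TT n)/n^3 -> 0, choose (n+6) 6 / n^6 -> 1/720). -/

set_option linter.all false

namespace Vale.Agent.P054.J

open MvPolynomial Finset

private theorem ls_ch3 (n : ℕ) : (((n + 3).choose 3 : ℕ) : ℝ) = (n + 1) * (n + 2) * (n + 3) / 6 := by
  have h := Nat.ascFactorial_eq_factorial_mul_choose n 3
  have h1 : n.succ.ascFactorial 3 = (n + 1) * (n + 2) * (n + 3) := by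
    simp [Nat.ascFactorial]; ring
  have h2 : (n + 1).ascFactorial 3 = (n + 1) * (n + 2) * (n + 3) := h1
  rw [h2] at h
  have h3 : (Nat.factorial 3) = 6 := rfl
  rw [h3] at h
  have h4 : (((n + 1) * (n + 2) * (n + 3) : ℕ) : ℝ) = ((6 * (n + 3).choose 3 : ℕ) : ℝ) := by rw [h]
  push_cast at h4
  linarith

private theorem ls_ch6 (n : ℕ) : (((n + 6).choose 6 : ℕ) : ℝ) =
    (n + 1) * (n + 2) * (n + 3) * (n + 4) * (n + 5) * (n + 6) / 720 := by
  have h := Nat.ascFactorial_eq_factorial_mul_choose n 6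
  have h1 : n.succ.ascFactorial 6 = (n + 1) * (n + 2) * (n + 3) * (n + 4) * (n + 5) * (n + 6) := by
    simp [Nat.ascFactorial]; ring
  have h2 : (n + 1).ascFactorial 6 = (n + 1) * (n + 2) * (n + 3) * (n + 4) * (n + 5) * (n + 6) := h1
  rw [h2] at h
  have h3 : (Nat.factorial 6) = 720 := rfl
  rw [h3] at h
  have h4 : (((n + 1) * (n + 2) * (n + 3) * (n + 4) * (n + 5) * (n + 6) : ℕ) : ℝ) =
      ((720 * (n + 6).choose 6 : ℕ) : ℝ) := by rw [h]
  push_cast at h4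
  linarith

/-- The limit step. -/
theorem limit_step (J N : ℕ) (hJ : 1 ≤ J)
    (h : ∀ n : ℕ, (((n + 6).choose 6 : ℕ) : ℝ) ≤
      J * N * (2 * (TT n : ℝ) / J + 4 * ((TT (n + J) : ℝ) - TT n)) ^ 2 / 16) : J ≤ 5 * N := by
  have hJ0 : (0 : ℝ) < J := by exact_mod_cast hJ
  let f : ℝ → ℝ := fun x => (1 + x) * (1 + 2 * x) * (1 + 3 * x) * (1 + 4 * x) * (1 + 5 * x) *
    (1 + 6 * x) / 720
  let g : ℝ → ℝ := fun x => J * N * (2 * ((1 + x) * (1 + 2 * x) * (1 + 3 * x) / 6) / J +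
    4 * ((1 + (J + 1) * x) * (1 + (J + 2) * x) * (1 + (J + 3) * x) / 6 -
      (1 + x) * (1 + 2 * x) * (1 + 3 * x) / 6)) ^ 2 / 16
  have hf : Continuous f := by
    simp only [f]
    fun_prop
  have hg : Continuous g := by
    simp only [g]
    fun_prop
  have hx : Filter.Tendsto (fun n : ℕ => (1 : ℝ) / n) Filter.atTop (nhds 0) :=
    tendsto_one_div_atTop_nhds_zero_nat
  have h1 : Filter.Tendsto (fun n : ℕ => f ((1 : ℝ) / n)) Filter.atTop (nhds (f 0)) :=
    (hf.tendsto 0).comp hx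
  have h2 : Filter.Tendsto (fun n : ℕ => g ((1 : ℝ) / n)) Filter.atTop (nhds (g 0)) :=
    (hg.tendsto 0).comp hx
  have h3 : ∀ᶠ n : ℕ in Filter.atTop, f ((1 : ℝ) / n) ≤ g ((1 : ℝ) / n) := by
    filter_upwards [Filter.eventually_ge_atTop 1] with n hn
    have hn0 : (0 : ℝ) < n := by exact_mod_cast hn
    have h4 := h n
    unfold TT at h4
    rw [ls_ch6, ls_ch3, ls_ch3] at h4
    push_cast at h4
    have e1 : f ((1 : ℝ) / n) = (n + 1) * (n + 2) * (n + 3) * (n + 4) * (n + 5) * (n + 6) / 720 /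
        (n : ℝ) ^ 6 := by
      simp only [f]
      field_simp
    have e2 : g ((1 : ℝ) / n) = J * N * (2 * (((n : ℝ) + 1) * (n + 2) * (n + 3) / 6) / J +
        4 * (((n : ℝ) + J + 1) * (n + J + 2) * (n + J + 3) / 6 -
        (n + 1) * (n + 2) * (n + 3) / 6)) ^ 2 / 16 / (n : ℝ) ^ 6 := by
      simp only [g]
      field_simp
      ring
    rw [e1, e2]
    exact div_le_div_of_nonneg_right h4 (by positivity)
  have h5 := le_of_tendsto_of_tendsto h1 h2 h3
  simp only [f, g] at h5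
  have h6 : (1 : ℝ) / 720 ≤ N / (144 * J) := by
    have e3 : (J : ℝ) * N * (2 * ((1 + 0) * (1 + 2 * 0) * (1 + 3 * 0) / 6) / J +
        4 * ((1 + (J + 1) * 0) * (1 + (J + 2) * 0) * (1 + (J + 3) * 0) / 6 -
        (1 + 0) * (1 + 2 * 0) * (1 + 3 * 0) / 6)) ^ 2 / 16 = N / (144 * J) := by
      field_simp
      ring
    rw [e3] at h5
    norm_num at h5 ⊢
    exact h5
  rw [div_le_div_iff₀ (by norm_num) (by positivity)] at h6
  have h7 : (J : ℝ) ≤ 5 * N := by linarith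
  exact_mod_cast h7

end Vale.Agent.P054.J
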