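import Vale.Agent.P054.J.Count
import Vale.Agent.P054.J.Handicap
import Vale.Agent.P054.J.LimitStep

/-!
Block J, file ConfBound: `|G| ≤ 5 * N1 * N2`, `N1`, `N2` the numbers of used flats with label
false, true.

PROOF.  Strong induction on `|G|`.  Let `J = |G| ≥ 1` and suppose `J > 5 N1 N2`.  For every
`B ⊊ G`: `|B| ≤ 5 N1(B) N2(B)`, hence `|B|/J ≤ N1(B)N2(B)/(N1 N2) ≤ (x+y)/2` with
`x = N1(B)/N1 ≤ 1`, `y = N2(B)/N2 ≤ 1` (`x*y ≤ ((x+y)/2)^2 ≤ (x+y)/2`), i.e.
(H) `2 |B| N1 N2 ≤ J (N1(B) N2 + N2(B) N1)`, also true for `B = G`.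
For a flat `l` used by `G` put `U l = J N2` (label false), `J N1` (label true), `S l = inc G l`,
`c = 2 T n N1 N2`.  `∑_{l used} U l = 2 J N1 N2`.  For `A ⊆ G`, `B = G \ A`: a flat with `S l ⊆ A` is a
used flat that is not used by `B`, so `∑_{S l ⊆ A} U l = 2 J N1 N2 - J (N1(B) N2 + N2(B) N1)
≤ 2 J N1 N2 - 2 |B| N1 N2 = 2 |A| N1 N2`: this is `hHall`.  `handicap` with
`D l n m = DD n (S l) (y l) m`, `h = J` (`DD_congr, DD_anti, DD_submod, DD_mono, DD_shift, DD_zero,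
DD_top`; the parameters `y l g`, `g ∈ S l`, are distinct by `hpt`, `hinj`) gives `γ`.  Let
`b_i` be the allocation of `fl g i` at `g` (the flats containing `g` are exactly the four distinct `fl g i`):
`J N2 (b_0 + b_1) + J N1 (b_2 + b_3) ≤ 2 T n N1 N2 + 2 J (N1 + N2) Δ`, `Δ = T (n+J) - T n`.
With `p = (b_0+b_1)/N1`, `q = (b_2+b_3)/N2`: `p + q ≤ 2 T n / J + 4 Δ` (`N_i ≥ 1`), and
`sqrt(b_0 b_1 b_2 b_3) ≤ (b_0+b_1)(b_2+b_3)/4 = N1 N2 p q / 4 ≤ N1 N2 (p+q)^2/16`.  So by `dim_le`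
`(n+6).choose 6 ≤ J N1 N2 (2 T n / J + 4 Δ_n)^2 / 16` for all `n`.  Divide by `n^6` and let
`n → ∞` (`T n / n^3 → 1/6`, `Δ_n / n^3 → 0`, `(n+6).choose 6 / n^6 → 1/720`):
`1/720 ≤ N1 N2/(144 J)`, i.e. `J ≤ 5 N1 N2`.
-/

set_option linter.all false

namespace Vale.Agent.P054.J

open MvPolynomial Finset

section ConfBound

variable {ι κ : Type}

private theorem cfb_mem_inc (c : Conf ι κ) (G : Finset ι) (l : κ) (g : ι) :
    g ∈ c.inc G l ↔ g ∈ G ∧ ∃ i, c.fl g i = l := by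
  classical
  unfold Conf.inc
  rw [Finset.mem_filter]

private theorem cfb_mem_used (c : Conf ι κ) (G : Finset ι) (b : Bool) (l : κ) :
    l ∈ c.used G b ↔ (∃ g ∈ G, ∃ i, c.fl g i = l) ∧ c.lab l = b := by
  classical
  unfold Conf.used
  rw [Finset.mem_filter, Finset.mem_biUnion]
  simp only [Finset.mem_image, Finset.mem_univ, true_and]

private theorem cfb_used_mono (c : Conf ι κ) {B G : Finset ι} (h : B ⊆ G) (b : Bool) :
    c.used B b ⊆ c.used G b := by
  intro l hl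
  rw [cfb_mem_used] at hl ⊢
  obtain ⟨⟨g, hg, i, hi⟩, hb⟩ := hl
  exact ⟨⟨g, h hg, i, hi⟩, hb⟩

private theorem cfb_TT_mono {a b : ℕ} (h : a ≤ b) : TT a ≤ TT b := by
  unfold TT
  exact Nat.choose_le_choose 3 (by omega)

private theorem cfb_injOn (c : Conf ι κ) (G : Finset ι) (l : κ) :
    Set.InjOn (c.y l) (c.inc G l : Set ι) := by
  intro g hg g' hg' h
  rw [Finset.mem_coe, cfb_mem_inc] at hg hg'
  obtain ⟨-, i, hi⟩ := hg
  obtain ⟨-, i', hi'⟩ := hg'
  have h1 := c.hpt g i g' i' (hi.trans hi'.symm)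
  rw [hi, ← h, sub_self, Matrix.mulVec_zero, sub_eq_zero] at h1
  exact (c.hinj h1).symm

/-- (H) -/
private theorem cfb_H {b n1 n2 N1 N2 J : ℕ} (h1 : n1 ≤ N1) (h2 : n2 ≤ N2) (hb : b ≤ 5 * n1 * n2)
    (hJ : 5 * N1 * N2 ≤ J) : 2 * b * N1 * N2 ≤ J * (n1 * N2 + n2 * N1) := by
  have e1 : 2 * b * N1 * N2 ≤ 2 * (5 * n1 * n2) * N1 * N2 := by gcongr
  have e2 : 5 * N1 * N2 * (n1 * N2 + n2 * N1) ≤ J * (n1 * N2 + n2 * N1) := by gcongr
  have e3 : n1 * n2 ≤ n1 * N2 := Nat.mul_le_mul_left _ h2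
  have e4 : n1 * n2 ≤ n2 * N1 := by rw [mul_comm]; exact Nat.mul_le_mul_left _ h1
  have e5 : 2 * (5 * n1 * n2) * N1 * N2 = 5 * N1 * N2 * (n1 * n2 + n1 * n2) := by ring
  have e6 : 5 * N1 * N2 * (n1 * n2 + n1 * n2) ≤ 5 * N1 * N2 * (n1 * N2 + n2 * N1) :=
    Nat.mul_le_mul_left _ (Nat.add_le_add e3 e4)
  omega

/-- the Hall type inequality -/
private theorem cfb_hall [DecidableEq κ] [DecidableEq ι] (c : Conf ι κ) (G : Finset ι) (N1 N2 : ℕ)
    (hN1 : (c.used G false).card = N1) (hN2 : (c.used G true).card = N2)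
    (hB : ∀ B ⊆ G, 2 * B.card * N1 * N2 ≤
      G.card * ((c.used B false).card * N2 + (c.used B true).card * N1))
    (K : Finset κ) (hK : K = c.used G false ∪ c.used G true) (A : Finset ι) (hA : A ⊆ G) :
    ∑ l ∈ K.filter (fun l => c.inc G l ⊆ A), (if c.lab l = false then G.card * N2 else G.card * N1) ≤
      2 * N1 * N2 * A.card := by
  set U : κ → ℕ := fun l => if c.lab l = false then G.card * N2 else G.card * N1 with hU
  have hdisj : Disjoint ((c.used G false).filter (fun l => c.inc G l ⊆ A))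
      ((c.used G true).filter (fun l => c.inc G l ⊆ A)) := by
    rw [Finset.disjoint_left]
    intro l h1 h2
    rw [Finset.mem_filter, cfb_mem_used] at h1 h2
    rw [h1.1.2] at h2
    exact absurd h2.1.2 (by decide)
  rw [hK, Finset.filter_union, Finset.sum_union hdisj]
  have hf : ∀ b : Bool, ((c.used G b).filter (fun l => c.inc G l ⊆ A)).card +
      (c.used (G \ A) b).card ≤ (c.used G b).card := by
    intro b
    rw [← Finset.card_union_of_disjoint]
    · refine Finset.card_le_card (Finset.union_subset (Finset.filter_subset _ _)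
        (cfb_used_mono c Finset.sdiff_subset b))
    · rw [Finset.disjoint_left]
      intro l h1 h2
      rw [Finset.mem_filter] at h1
      rw [cfb_mem_used] at h2
      obtain ⟨⟨g, hg, i, hi⟩, -⟩ := h2
      rw [Finset.mem_sdiff] at hg
      exact hg.2 (h1.2 ((cfb_mem_inc c G l g).2 ⟨hg.1, i, hi⟩))
  have s1 : ∑ l ∈ (c.used G false).filter (fun l => c.inc G l ⊆ A), U l =
      ((c.used G false).filter (fun l => c.inc G l ⊆ A)).card * (G.card * N2) := by
    rw [Finset.sum_const_nat]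
    intro l hl
    rw [Finset.mem_filter, cfb_mem_used] at hl
    simp only [hU, hl.1.2, if_true]
  have s2 : ∑ l ∈ (c.used G true).filter (fun l => c.inc G l ⊆ A), U l =
      ((c.used G true).filter (fun l => c.inc G l ⊆ A)).card * (G.card * N1) := by
    rw [Finset.sum_const_nat]
    intro l hl
    rw [Finset.mem_filter, cfb_mem_used] at hl
    simp only [hU, hl.1.2]
    rfl
  have h1 := hf false
  have h2 := hf true
  rw [hN1] at h1
  rw [hN2] at h2
  have h3 := hB (G \ A) Finset.sdiff_subset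
  have h4 : (G \ A).card + A.card = G.card := Finset.card_sdiff_add_card_eq_card hA
  change ∑ l ∈ _, U l + ∑ l ∈ _, U l ≤ _
  rw [s1, s2]
  set f1 := ((c.used G false).filter (fun l => c.inc G l ⊆ A)).card
  set f2 := ((c.used G true).filter (fun l => c.inc G l ⊆ A)).card
  set n1 := (c.used (G \ A) false).card
  set n2 := (c.used (G \ A) true).card
  set J := G.card
  set b := (G \ A).card
  set a := A.card
  have e1 : f1 * (J * N2) + n1 * (J * N2) ≤ N1 * (J * N2) := by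
    rw [← add_mul]
    exact Nat.mul_le_mul_right _ h1
  have e2 : f2 * (J * N1) + n2 * (J * N1) ≤ N2 * (J * N1) := by
    rw [← add_mul]
    exact Nat.mul_le_mul_right _ h2
  have e3 : J * (n1 * N2 + n2 * N1) = n1 * (J * N2) + n2 * (J * N1) := by ring
  have e4 : N1 * (J * N2) + N2 * (J * N1) = 2 * b * N1 * N2 + 2 * N1 * N2 * a := by
    rw [← h4]
    ring
  omega

/-- the bound of one point -/
private theorem cfb_point (b : Fin 4 → ℕ) (N1 N2 J t D : ℕ) (h1 : 1 ≤ N1) (h2 : 1 ≤ N2) (hJ : 1 ≤ J)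
    (h : J * N2 * (b 0 + b 1) + J * N1 * (b 2 + b 3) ≤
      2 * t * N1 * N2 + 2 * J * (N1 + N2) * D) :
    Real.sqrt (∏ i : Fin 4, (b i : ℝ)) ≤
      (N1 * N2 : ℝ) * (2 * (t : ℝ) / J + 4 * (D : ℝ)) ^ 2 / 16 := by
  have hJ' : (1 : ℝ) ≤ J := by exact_mod_cast hJ
  have h1' : (1 : ℝ) ≤ N1 := by exact_mod_cast h1
  have h2' : (1 : ℝ) ≤ N2 := by exact_mod_cast h2
  have hR : (J * N2 * (b 0 + b 1) + J * N1 * (b 2 + b 3) : ℝ) ≤
      2 * t * N1 * N2 + 2 * J * (N1 + N2) * D := by exact_mod_cast h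
  have hb : ∀ i, (0 : ℝ) ≤ b i := fun i => Nat.cast_nonneg _
  have hD : (0 : ℝ) ≤ D := Nat.cast_nonneg _
  have ht : (0 : ℝ) ≤ t := Nat.cast_nonneg _
  set p : ℝ := (b 0 + b 1) / N1 with hp
  set q : ℝ := (b 2 + b 3) / N2 with hq
  have hp0 : 0 ≤ p := div_nonneg (add_nonneg (hb 0) (hb 1)) (by linarith)
  have hq0 : 0 ≤ q := div_nonneg (add_nonneg (hb 2) (hb 3)) (by linarith)
  have ep : (b 0 + b 1 : ℝ) = N1 * p := by
    rw [hp]; field_simp
  have eq : (b 2 + b 3 : ℝ) = N2 * q := by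
    rw [hq]; field_simp
  rw [ep, eq] at hR
  have hN : (0 : ℝ) < J * N1 * N2 := by positivity
  have hpq : p + q ≤ 2 * (t : ℝ) / J + 4 * (D : ℝ) := by
    have e1 : (J * N1 * N2 : ℝ) * (p + q) ≤ (J * N1 * N2 : ℝ) * (2 * (t : ℝ) / J + 4 * (D : ℝ)) := by
      have e2 : (J * N1 * N2 : ℝ) * (2 * (t : ℝ) / J + 4 * (D : ℝ)) =
          2 * t * N1 * N2 + 4 * (J * N1 * N2) * D := by
        field_simp
      rw [e2]
      have e3 : (N1 + N2 : ℝ) ≤ 2 * (N1 * N2) := by nlinarith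
      have e4 : (2 * J * (N1 + N2) * D : ℝ) ≤ 4 * (J * N1 * N2) * D := by
        have : (2 * J * (N1 + N2) : ℝ) ≤ 4 * (J * N1 * N2) := by nlinarith
        exact mul_le_mul_of_nonneg_right this hD
      nlinarith
    exact le_of_mul_le_mul_left e1 hN
  have hs : ∏ i : Fin 4, (b i : ℝ) ≤ ((b 0 + b 1) * (b 2 + b 3) / 4 : ℝ) ^ 2 := by
    rw [Fin.prod_univ_four]
    have e1 : (b 0 * b 1 : ℝ) ≤ ((b 0 + b 1) / 2) ^ 2 := by nlinarith [sq_nonneg ((b 0 : ℝ) - b 1)]
    have e2 : (b 2 * b 3 : ℝ) ≤ ((b 2 + b 3) / 2) ^ 2 := by nlinarith [sq_nonneg ((b 2 : ℝ) - b 3)]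
    calc (b 0 * b 1 * b 2 * b 3 : ℝ) = (b 0 * b 1) * (b 2 * b 3) := by ring
      _ ≤ ((b 0 + b 1) / 2) ^ 2 * ((b 2 + b 3) / 2) ^ 2 :=
        mul_le_mul e1 e2 (mul_nonneg (hb 2) (hb 3)) (sq_nonneg _)
      _ = ((b 0 + b 1) * (b 2 + b 3) / 4 : ℝ) ^ 2 := by ring
  have hs2 : Real.sqrt (∏ i : Fin 4, (b i : ℝ)) ≤ (b 0 + b 1) * (b 2 + b 3) / 4 := by
    refine (Real.sqrt_le_sqrt hs).trans (le_of_eq (Real.sqrt_sq ?_))
    exact div_nonneg (mul_nonneg (add_nonneg (hb 0) (hb 1)) (add_nonneg (hb 2) (hb 3))) (by norm_num)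
  refine hs2.trans ?_
  rw [ep, eq]
  have e5 : p * q ≤ (p + q) ^ 2 / 4 := by nlinarith [sq_nonneg (p - q)]
  have e6 : (p + q) ^ 2 ≤ (2 * (t : ℝ) / J + 4 * (D : ℝ)) ^ 2 :=
    pow_le_pow_left₀ (add_nonneg hp0 hq0) hpq 2
  have e7 : (0 : ℝ) ≤ N1 * N2 := by positivity
  calc (N1 * p * (N2 * q) / 4 : ℝ) = N1 * N2 * (p * q) / 4 := by ring
    _ ≤ N1 * N2 * ((2 * (t : ℝ) / J + 4 * (D : ℝ)) ^ 2 / 4) / 4 := by
      have : (N1 * N2 : ℝ) * (p * q) ≤ N1 * N2 * ((2 * (t : ℝ) / J + 4 * (D : ℝ)) ^ 2 / 4) :=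
        mul_le_mul_of_nonneg_left (by linarith) e7
      linarith
    _ = _ := by ring

end ConfBound

theorem conf_bound {ι κ : Type} [LinearOrder ι] (c : Conf ι κ) (G : Finset ι) :
    G.card ≤ 5 * (c.used G false).card * (c.used G true).card := by
  classical
  induction G using Finset.strongInduction with
  | H G ih =>
    by_contra hcon
    have hcon := not_le.1 hcon
    have hG : G.Nonempty := by
      rw [← Finset.card_pos]
      omega
    have hJ : 1 ≤ G.card := Finset.card_pos.2 hG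
    set N1 := (c.used G false).card with hN1
    set N2 := (c.used G true).card with hN2
    obtain ⟨g0, hg0⟩ := hG
    have h1 : 1 ≤ N1 := Finset.card_pos.2 ⟨c.fl g0 0, (cfb_mem_used c G false _).2
      ⟨⟨g0, hg0, 0, rfl⟩, by rw [c.hlab]; rfl⟩⟩
    have h2 : 1 ≤ N2 := Finset.card_pos.2 ⟨c.fl g0 2, (cfb_mem_used c G true _).2
      ⟨⟨g0, hg0, 2, rfl⟩, by rw [c.hlab]; rfl⟩⟩
    have hB : ∀ B ⊆ G, 2 * B.card * N1 * N2 ≤
        G.card * ((c.used B false).card * N2 + (c.used B true).card * N1) := by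
      intro B hB
      rcases eq_or_ne B G with h | h
      · subst h
        rw [← hN1, ← hN2]
        apply le_of_eq
        ring
      · exact cfb_H (Finset.card_le_card (cfb_used_mono c hB false))
          (Finset.card_le_card (cfb_used_mono c hB true)) (ih B (Finset.ssubset_iff_subset_ne.2 ⟨hB, h⟩)) hcon.le
    refine absurd (limit_step G.card (N1 * N2) hJ ?_) (by rw [← mul_assoc]; omega)
    intro n
    set K : Finset κ := c.used G false ∪ c.used G true with hK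
    have memK : ∀ l, l ∈ K ↔ ∃ g ∈ G, ∃ i, c.fl g i = l := by
      intro l
      rw [hK, Finset.mem_union, cfb_mem_used, cfb_mem_used]
      constructor
      · rintro (h | h) <;> exact h.1
      · intro h
        cases hb : c.lab l
        · exact Or.inl ⟨h, rfl⟩
        · exact Or.inr ⟨h, rfl⟩
    obtain ⟨γ, hγ⟩ := handicap G K (fun l => c.inc G l)
      (fun l hl => by
        obtain ⟨g, hg, i, hi⟩ := (memK l).1 hl
        exact ⟨g, (cfb_mem_inc c G l g).2 ⟨hg, i, hi⟩⟩)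
      (fun l hl g hg => ((cfb_mem_inc c G l g).1 hg).1)
      (fun l n m => DD n (c.inc G l) (c.y l) m) TT n G.card
      (fun l => if c.lab l = false then G.card * N2 else G.card * N1) (2 * TT n * N1 * N2)
      (fun l hl n m m' h => DD_congr n _ _ m m' h)
      (fun l hl n m m' h => DD_anti n _ _ m m' h)
      (fun l hl n m m' g h hg => DD_submod n _ _ m m' g h hg)
      (fun l hl n n' m m' hn h => DD_mono n n' _ _ m m' hn h)
      (fun l hl m g hg => DD_shift n G.card _ _ (cfb_injOn c G l)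
        (Finset.card_le_card fun g' hg' => ((cfb_mem_inc c G l g').1 hg').1) m g hg)
      (fun l hl n => DD_zero n _ _)
      (fun l hl n m g hg h => DD_top n _ _ m g hg h)
      (fun A hA => by
        have h := cfb_hall c G N1 N2 hN1.symm hN2.symm hB K hK A hA
        calc TT n * _ ≤ TT n * (2 * N1 * N2 * A.card) := Nat.mul_le_mul_left _ h
          _ = _ := by ring)
    set R := ∑ g ∈ G, (n + γ g + 2) with hR
    have hR' : ∀ g' ∈ G, n + γ g' + 2 ≤ R := fun g' hg' =>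
      Finset.single_le_sum (f := fun g => n + γ g + 2) (fun _ _ => Nat.zero_le _) hg'
    refine (dim_le c G ⟨g0, hg0⟩ γ n R hR').trans ?_
    have hpt : ∀ g ∈ G, Real.sqrt (∏ i : Fin 4,
        (ball (fun m => DD n (c.inc G (c.fl g i)) (c.y (c.fl g i)) m) γ R g : ℝ)) ≤
        (N1 * N2 : ℝ) * (2 * (TT n : ℝ) / G.card + 4 * ((TT (n + G.card) - TT n : ℕ) : ℝ)) ^ 2 / 16 := by
      intro g hg
      have hb := hγ R hR' g hg
      have hfil : K.filter (fun l => g ∈ c.inc G l) = Finset.univ.image (c.fl g) := by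
        ext l
        rw [Finset.mem_filter, memK, cfb_mem_inc, Finset.mem_image]
        constructor
        · rintro ⟨-, -, i, hi⟩
          exact ⟨i, Finset.mem_univ _, hi⟩
        · rintro ⟨i, -, hi⟩
          exact ⟨⟨g, hg, i, hi⟩, hg, i, hi⟩
      rw [hfil, Finset.sum_image (fun a _ b _ h => c.hfl g h),
        Finset.sum_image (fun a _ b _ h => c.hfl g h), Fin.sum_univ_four, Fin.sum_univ_four] at hb
      have l0 : c.lab (c.fl g 0) = false := by rw [c.hlab]; rfl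
      have l1 : c.lab (c.fl g 1) = false := by rw [c.hlab]; rfl
      have l2 : c.lab (c.fl g 2) = true := by rw [c.hlab]; rfl
      have l3 : c.lab (c.fl g 3) = true := by rw [c.hlab]; rfl
      simp only [l0, l1, l2, l3, if_true, reduceCtorEq, if_false] at hb
      refine cfb_point (fun i => ball (fun m => DD n (c.inc G (c.fl g i)) (c.y (c.fl g i)) m) γ R g)
        N1 N2 G.card (TT n) (TT (n + G.card) - TT n) h1 h2 hJ ?_
      refine le_trans (le_of_eq ?_) (hb.trans (le_of_eq ?_))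
      · ring
      · ring
    refine (Finset.sum_le_sum hpt).trans (le_of_eq ?_)
    rw [Finset.sum_const, nsmul_eq_mul, Nat.cast_sub (cfb_TT_mono (Nat.le_add_right _ _)), Nat.cast_mul]
    ring

end Vale.Agent.P054.J
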