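import Vale.Agent.P054.J.JointDef
import Vale.Agent.P054.J.ConfBound

/-!
Block J, file Cayley: from motions to configurations (Cayley coordinates).

PROOF of `joints_cayley` (no motion has the eigenvalue -1).  For `g = (Q, v)`, `Q` a rotation with
`det (1 + Q) ≠ 0`, put `P = (1 + Q)^{-1}`, `W = 1 - 2 P` (antisymmetric), `W = [ω]`, `w = 2 P v`.
If `Q a + v = c` then `c - a = ω × (a + c) + w`.  The coordinates of `g` are `pt g = (ω, w)` in `R^6`
(injective).  For a pair `q = (a, c)` the flat is `{(ω, c - a - ω × (a + c))}`, parametrised by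
`y = ω`: `M q = [1 ; ω ↦ -(ω × (a + c))]`.  `κ = pairs × Bool`, `lab` the side.
At `g` with the chosen points `p i = (a_i, c_i)` put `m_i = a_i + c_i = (1 + Q) a_i + v` (affinely
independent because `1 + Q` is invertible).  The columns of `A g` are
`e_{ij} = (m_i - m_j, -(m_i - m_j) × m_i)` for the edges `01, 02, 03, 12, 13, 23` in this order (= 0..5).
-/

set_option linter.all false

namespace Vale.Agent.P054.J

open MvPolynomial Finset Matrix

/-! ### vectors and matrices -/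

/-- cross product -/
def cyCr (a b : Fin 3 → ℝ) : Fin 3 → ℝ :=
  ![a 1 * b 2 - a 2 * b 1, a 2 * b 0 - a 0 * b 2, a 0 * b 1 - a 1 * b 0]

/-- six coordinates -/
def cySix (u w : Fin 3 → ℝ) : Fin 6 → ℝ := ![u 0, u 1, u 2, w 0, w 1, w 2]

/-- the direction matrix of a flat -/
def cyM (m : Fin 3 → ℝ) : Matrix (Fin 6) (Fin 3) ℝ :=
  !![1, 0, 0; 0, 1, 0; 0, 0, 1; 0, -m 2, m 1; m 2, 0, -m 0; -m 1, m 0, 0]

/-- first vertex of an edge -/
def cyF : Fin 6 → Fin 4 := ![0, 0, 0, 1, 1, 2]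

/-- second vertex of an edge -/
def cyS : Fin 6 → Fin 4 := ![1, 2, 3, 2, 3, 3]

/-- edge vector -/
def cyU (m : Fin 4 → Fin 3 → ℝ) (e : Fin 6) : Fin 3 → ℝ := fun r => m (cyF e) r - m (cyS e) r

/-- the basis of the six edges -/
def cyA (m : Fin 4 → Fin 3 → ℝ) : Matrix (Fin 6) (Fin 6) ℝ :=
  fun r e => cySix (cyU m e) (fun k => -cyCr (cyU m e) (m (cyF e)) k) r

/-- the three edges at a vertex -/
def cyB (m : Fin 4 → Fin 3 → ℝ) (i : Fin 4) : Matrix (Fin 3) (Fin 3) ℝ :=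
  fun r k => cyU m (tri i k) r

/-- the determinant of the tetrahedron -/
noncomputable def cyD (m : Fin 4 → Fin 3 → ℝ) : ℝ :=
  (m 0 0 - m 3 0) * ((m 1 1 - m 3 1) * (m 2 2 - m 3 2) - (m 1 2 - m 3 2) * (m 2 1 - m 3 1)) -
  (m 0 1 - m 3 1) * ((m 1 0 - m 3 0) * (m 2 2 - m 3 2) - (m 1 2 - m 3 2) * (m 2 0 - m 3 0)) +
  (m 0 2 - m 3 2) * ((m 1 0 - m 3 0) * (m 2 1 - m 3 1) - (m 1 1 - m 3 1) * (m 2 0 - m 3 0))

theorem cyM_mulVec (m x : Fin 3 → ℝ) :
    (cyM m).mulVec x = cySix x (fun k => -cyCr x m k) := by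
  funext r
  fin_cases r <;> simp [cyM, cySix, cyCr, Matrix.mulVec, dotProduct, Fin.sum_univ_three] <;> ring

theorem cyCr_edge (a b : Fin 3 → ℝ) :
    cyCr (fun r => a r - b r) a = cyCr (fun r => a r - b r) b := by
  funext r
  fin_cases r <;> simp [cyCr] <;> ring

theorem cy_MB (m : Fin 4 → Fin 3 → ℝ) (i : Fin 4) : cyM (m i) * cyB m i = cyA m * Ext i := by
  ext r k
  have h1 : (cyM (m i) * cyB m i) r k = (cyM (m i)).mulVec (cyU m (tri i k)) r := rfl
  have h2 : (cyA m * Ext i) r k = cyA m r (tri i k) := by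
    simp [Matrix.mul_apply, Ext]
  rw [h1, h2, cyM_mulVec]
  have h3 : cyCr (cyU m (tri i k)) (m i) = cyCr (cyU m (tri i k)) (m (cyF (tri i k))) := by
    fin_cases i <;> fin_cases k <;> first | rfl | exact (cyCr_edge _ _).symm
  unfold cyA
  rw [h3]

theorem cyB_det (m : Fin 4 → Fin 3 → ℝ) (i : Fin 4) : (cyB m i).det = cyD m := by
  fin_cases i <;> simp [Matrix.det_fin_three, cyB, cyU, tri, cyF, cyS, cyD] <;> ring

theorem cyA_det (m : Fin 4 → Fin 3 → ℝ) (h : cyD m ≠ 0) : (cyA m).det ≠ 0 := by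
  intro hdet
  obtain ⟨x, hx0, hx⟩ := Matrix.exists_mulVec_eq_zero_iff.2 hdet
  apply hx0
  have e : ∀ r, ∑ j, cyA m r j * x j = 0 := fun r => by
    have := congrFun hx r
    simpa [Matrix.mulVec, dotProduct] using this
  have h0 := e 0
  have h1 := e 1
  have h2 := e 2
  have h3 := e 3
  have h4 := e 4
  have h5 := e 5
  simp only [Fin.sum_univ_six, cyA, cySix, cyCr, cyU, cyF, cyS, Matrix.cons_val] at h0 h1 h2 h3 h4 h5
  have hD : cyD m = (m 0 0 - m 3 0) * ((m 1 1 - m 3 1) * (m 2 2 - m 3 2) -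
      (m 1 2 - m 3 2) * (m 2 1 - m 3 1)) -
    (m 0 1 - m 3 1) * ((m 1 0 - m 3 0) * (m 2 2 - m 3 2) - (m 1 2 - m 3 2) * (m 2 0 - m 3 0)) +
    (m 0 2 - m 3 2) * ((m 1 0 - m 3 0) * (m 2 1 - m 3 1) - (m 1 1 - m 3 1) * (m 2 0 - m 3 0)) := rfl
  have x0 : cyD m * x 0 = 0 := by
    rw [hD]
    linear_combination (-(m 2 0 - m 3 0)) * h3 - (m 2 1 - m 3 1) * h4 - (m 2 2 - m 3 2) * h5 +
      (m 3 2 * (m 2 1 - m 3 1) - m 3 1 * (m 2 2 - m 3 2)) * h0 +
      (m 3 0 * (m 2 2 - m 3 2) - m 3 2 * (m 2 0 - m 3 0)) * h1 +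
      (m 3 1 * (m 2 0 - m 3 0) - m 3 0 * (m 2 1 - m 3 1)) * h2
  have x1 : cyD m * x 1 = 0 := by
    rw [hD]
    linear_combination (m 1 0 - m 3 0) * h3 + (m 1 1 - m 3 1) * h4 + (m 1 2 - m 3 2) * h5 -
      (m 3 2 * (m 1 1 - m 3 1) - m 3 1 * (m 1 2 - m 3 2)) * h0 -
      (m 3 0 * (m 1 2 - m 3 2) - m 3 2 * (m 1 0 - m 3 0)) * h1 -
      (m 3 1 * (m 1 0 - m 3 0) - m 3 0 * (m 1 1 - m 3 1)) * h2
  have x3 : cyD m * x 3 = 0 := by
    rw [hD]
    linear_combination (-(m 0 0 - m 3 0)) * h3 - (m 0 1 - m 3 1) * h4 - (m 0 2 - m 3 2) * h5 +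
      (m 3 2 * (m 0 1 - m 3 1) - m 3 1 * (m 0 2 - m 3 2)) * h0 +
      (m 3 0 * (m 0 2 - m 3 2) - m 3 2 * (m 0 0 - m 3 0)) * h1 +
      (m 3 1 * (m 0 0 - m 3 0) - m 3 0 * (m 0 1 - m 3 1)) * h2
  replace x0 := (mul_eq_zero.1 x0).resolve_left h
  replace x1 := (mul_eq_zero.1 x1).resolve_left h
  replace x3 := (mul_eq_zero.1 x3).resolve_left h
  rw [x0, x1, x3] at h0 h1 h2
  have x2 : cyD m * x 2 = 0 := by
    rw [hD]
    linear_combination
      ((m 1 1 - m 3 1) * (m 2 2 - m 3 2) - (m 1 2 - m 3 2) * (m 2 1 - m 3 1)) * h0 -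
      ((m 1 0 - m 3 0) * (m 2 2 - m 3 2) - (m 1 2 - m 3 2) * (m 2 0 - m 3 0)) * h1 +
      ((m 1 0 - m 3 0) * (m 2 1 - m 3 1) - (m 1 1 - m 3 1) * (m 2 0 - m 3 0)) * h2
  have x4 : cyD m * x 4 = 0 := by
    rw [hD]
    linear_combination
      ((m 2 1 - m 3 1) * (m 0 2 - m 3 2) - (m 2 2 - m 3 2) * (m 0 1 - m 3 1)) * h0 -
      ((m 2 0 - m 3 0) * (m 0 2 - m 3 2) - (m 2 2 - m 3 2) * (m 0 0 - m 3 0)) * h1 +
      ((m 2 0 - m 3 0) * (m 0 1 - m 3 1) - (m 2 1 - m 3 1) * (m 0 0 - m 3 0)) * h2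
  have x5 : cyD m * x 5 = 0 := by
    rw [hD]
    linear_combination
      ((m 0 1 - m 3 1) * (m 1 2 - m 3 2) - (m 0 2 - m 3 2) * (m 1 1 - m 3 1)) * h0 -
      ((m 0 0 - m 3 0) * (m 1 2 - m 3 2) - (m 0 2 - m 3 2) * (m 1 0 - m 3 0)) * h1 +
      ((m 0 0 - m 3 0) * (m 1 1 - m 3 1) - (m 0 1 - m 3 1) * (m 1 0 - m 3 0)) * h2
  replace x2 := (mul_eq_zero.1 x2).resolve_left h
  replace x4 := (mul_eq_zero.1 x4).resolve_left h
  replace x5 := (mul_eq_zero.1 x5).resolve_left h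
  funext j
  fin_cases j
  · exact x0
  · exact x1
  · exact x2
  · exact x3
  · exact x4
  · exact x5

/-! ### Cayley coordinates -/

/-- `(1 + Q)⁻¹` -/
noncomputable def cyP (g : Matrix (Fin 3) (Fin 3) ℝ × (Fin 3 → ℝ)) : Matrix (Fin 3) (Fin 3) ℝ :=
  (1 + g.1)⁻¹

/-- the axis vector -/
noncomputable def cyOm (g : Matrix (Fin 3) (Fin 3) ℝ × (Fin 3 → ℝ)) : Fin 3 → ℝ :=
  ![-2 * cyP g 2 1, -2 * cyP g 0 2, -2 * cyP g 1 0]

/-- the translation part -/
noncomputable def cyW (g : Matrix (Fin 3) (Fin 3) ℝ × (Fin 3 → ℝ)) : Fin 3 → ℝ :=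
  fun k => 2 * (cyP g).mulVec g.2 k

variable {g g' : Matrix (Fin 3) (Fin 3) ℝ × (Fin 3 → ℝ)}

theorem cyP_left (hd : (1 + g.1).det ≠ 0) : cyP g * (1 + g.1) = 1 :=
  Matrix.nonsing_inv_mul _ (isUnit_iff_ne_zero.2 hd)

theorem cyP_right (hd : (1 + g.1).det ≠ 0) : (1 + g.1) * cyP g = 1 :=
  Matrix.mul_nonsing_inv _ (isUnit_iff_ne_zero.2 hd)

theorem cyP_add (hQ : g.1ᵀ * g.1 = 1) (hd : (1 + g.1).det ≠ 0) : cyP g + (cyP g)ᵀ = 1 := by
  have hQ' : g.1 * g.1ᵀ = 1 := mul_eq_one_comm.1 hQ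
  have h1 := cyP_left hd
  have h2 : (1 + g.1ᵀ) * (cyP g)ᵀ = 1 := by
    have := congrArg Matrix.transpose h1
    rw [Matrix.transpose_mul, Matrix.transpose_add, Matrix.transpose_one] at this
    exact this
  have h3 : (1 + g.1) * (1 + g.1ᵀ) = (1 + g.1) + (1 + g.1ᵀ) := by
    rw [mul_add, add_mul, add_mul, hQ', mul_one, one_mul, mul_one]
    abel
  calc cyP g + (cyP g)ᵀ = cyP g * ((1 + g.1ᵀ) * (cyP g)ᵀ) + cyP g * (1 + g.1) * (cyP g)ᵀ := by
        rw [h2, h1, mul_one, one_mul]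
    _ = cyP g * ((1 + g.1) + (1 + g.1ᵀ)) * (cyP g)ᵀ := by noncomm_ring
    _ = (cyP g * (1 + g.1)) * ((1 + g.1ᵀ) * (cyP g)ᵀ) := by rw [← h3]; noncomm_ring
    _ = 1 := by rw [h1, h2, one_mul]

theorem cyP_entry (hQ : g.1ᵀ * g.1 = 1) (hd : (1 + g.1).det ≠ 0) (i j : Fin 3) :
    cyP g i j + cyP g j i = if i = j then 1 else 0 := by
  have := congrFun (congrFun (cyP_add hQ hd) i) j
  rw [Matrix.add_apply, Matrix.transpose_apply, Matrix.one_apply] at this
  exact this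

/-- `ω × x = x - 2 P x` -/
theorem cyCr_om (hQ : g.1ᵀ * g.1 = 1) (hd : (1 + g.1).det ≠ 0) (x : Fin 3 → ℝ) (k : Fin 3) :
    cyCr (cyOm g) x k = x k - 2 * (cyP g).mulVec x k := by
  have e := cyP_entry hQ hd
  have e00 := e 0 0
  have e11 := e 1 1
  have e22 := e 2 2
  have e01 := e 0 1
  have e02 := e 0 2
  have e12 := e 1 2
  simp at e00 e11 e22 e01 e02 e12
  fin_cases k
  · simp [cyCr, cyOm, Matrix.mulVec, dotProduct, Fin.sum_univ_three]
    linear_combination x 0 * e00 + 2 * x 1 * e01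
  · simp [cyCr, cyOm, Matrix.mulVec, dotProduct, Fin.sum_univ_three]
    linear_combination x 1 * e11 + 2 * x 2 * e12
  · simp [cyCr, cyOm, Matrix.mulVec, dotProduct, Fin.sum_univ_three]
    linear_combination x 2 * e22 + 2 * x 0 * e02

/-- the equation of the flat -/
theorem cy_flat (hQ : g.1ᵀ * g.1 = 1) (hd : (1 + g.1).det ≠ 0) {a c : Fin 3 → ℝ}
    (h : g.1.mulVec a + g.2 = c) (k : Fin 3) :
    c k - a k = cyCr (cyOm g) (fun r => a r + c r) k + cyW g k := by
  rw [cyCr_om hQ hd]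
  have h1 : (cyP g).mulVec (fun r => a r + c r) = a + (cyP g).mulVec g.2 := by
    have h2 : (fun r => a r + c r) = (1 + g.1).mulVec a + g.2 := by
      rw [Matrix.add_mulVec, Matrix.one_mulVec, ← h]
      funext r
      simp [add_assoc]
    rw [h2, Matrix.mulVec_add, Matrix.mulVec_mulVec, cyP_left hd, Matrix.one_mulVec]
  rw [h1]
  unfold cyW
  simp only [Pi.add_apply]
  ring

theorem cy_inj (hQ : g.1ᵀ * g.1 = 1) (hd : (1 + g.1).det ≠ 0) (hQ' : g'.1ᵀ * g'.1 = 1)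
    (hd' : (1 + g'.1).det ≠ 0) (h1 : cyOm g = cyOm g') (h2 : cyW g = cyW g') : g = g' := by
  have hP : cyP g = cyP g' := by
    have e := cyP_entry hQ hd
    have e' := cyP_entry hQ' hd'
    have o0 := congrFun h1 0
    have o1 := congrFun h1 1
    have o2 := congrFun h1 2
    simp [cyOm] at o0 o1 o2
    have a01 := e 0 1
    have a02 := e 0 2
    have a12 := e 1 2
    have a00 := e 0 0
    have a11 := e 1 1
    have a22 := e 2 2
    have b01 := e' 0 1
    have b02 := e' 0 2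
    have b12 := e' 1 2
    have b00 := e' 0 0
    have b11 := e' 1 1
    have b22 := e' 2 2
    simp at a01 a02 a12 a00 a11 a22 b01 b02 b12 b00 b11 b22
    ext i j
    fin_cases i <;> fin_cases j <;> simp <;> linarith
  have hQQ : g.1 = g'.1 := by
    have h3 : 1 + g.1 = 1 + g'.1 := by
      calc 1 + g.1 = ((1 + g'.1) * cyP g') * (1 + g.1) := by rw [cyP_right hd', one_mul]
        _ = (1 + g'.1) * (cyP g * (1 + g.1)) := by rw [← hP, Matrix.mul_assoc]
        _ = 1 + g'.1 := by rw [cyP_left hd, mul_one]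
    exact add_left_cancel h3
  have hv : g.2 = g'.2 := by
    have h3 : (cyP g).mulVec g.2 = (cyP g').mulVec g'.2 := by
      funext k
      have := congrFun h2 k
      unfold cyW at this
      linarith
    calc g.2 = (1 + g.1).mulVec ((cyP g).mulVec g.2) := by
          rw [Matrix.mulVec_mulVec, cyP_right hd, Matrix.one_mulVec]
      _ = (1 + g'.1).mulVec ((cyP g').mulVec g'.2) := by rw [h3, hQQ]
      _ = g'.2 := by rw [Matrix.mulVec_mulVec, cyP_right hd', Matrix.one_mulVec]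
  exact Prod.ext hQQ hv

/-- the determinant of the tetrahedron of the midpoints -/
theorem cyD_ne {p : Fin 4 → (Fin 3 → ℝ) × (Fin 3 → ℝ)} (hd : (1 + g.1).det ≠ 0)
    (hp : ∀ i, g.1.mulVec (p i).1 + g.2 = (p i).2)
    (hai : AffineIndependent ℝ (fun i => (p i).1)) :
    cyD (fun i r => (p i).1 r + (p i).2 r) ≠ 0 := by
  -- the matrix of the source points
  set N : Matrix (Fin 3) (Fin 3) ℝ := Matrix.of fun i r => (p i.castSucc).1 r - (p 3).1 r with hN
  have hNdet : N.det ≠ 0 := by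
    have h1 := (affineIndependent_iff_linearIndependent_vsub ℝ _ (3 : Fin 4)).1 hai
    have h2 : Function.Injective (fun i : Fin 3 => (⟨i.castSucc, by
        intro h
        have := congrArg Fin.val h
        simp at this
        omega⟩ : {x : Fin 4 // x ≠ 3})) := by
      intro i j hij
      have := congrArg (fun x => x.1) hij
      exact Fin.castSucc_injective _ this
    have h3 := h1.comp _ h2
    have h4 : LinearIndependent ℝ N.row := h3
    exact ((Matrix.linearIndependent_rows_iff_isUnit.1 h4).map Matrix.detMonoidHom).ne_zero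
  have key : cyD (fun i r => (p i).1 r + (p i).2 r) = (N * (1 + g.1)ᵀ).det := by
    set T : Matrix (Fin 3) (Fin 3) ℝ := N * (1 + g.1)ᵀ with hT
    have e : ∀ i : Fin 3, ∀ r, T i r =
        ((p i.castSucc).1 r + (p i.castSucc).2 r) - ((p 3).1 r + (p 3).2 r) := by
      intro i r
      have h1 := congrFun (hp i.castSucc) r
      have h2 := congrFun (hp 3) r
      rw [Pi.add_apply] at h1 h2
      have h3 : T i r = (1 + g.1).mulVec (fun s => N i s) r := by
        rw [hT, Matrix.mul_apply]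
        unfold Matrix.mulVec dotProduct
        refine Finset.sum_congr rfl fun s _ => ?_
        rw [Matrix.transpose_apply, mul_comm]
      have h4 : (fun s => N i s) = (p i.castSucc).1 - (p 3).1 := by
        funext s
        rfl
      rw [h3, h4, Matrix.add_mulVec, Matrix.one_mulVec, Matrix.mulVec_sub]
      simp only [Pi.add_apply, Pi.sub_apply]
      rw [← h1, ← h2]
      ring
    rw [Matrix.det_fin_three]
    simp only [e]
    unfold cyD
    simp only [show ((0 : Fin 3).castSucc : Fin 4) = 0 from rfl,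
      show ((1 : Fin 3).castSucc : Fin 4) = 1 from rfl,
      show ((2 : Fin 3).castSucc : Fin 4) = 2 from rfl]
    ring
  rw [key, Matrix.det_mul, Matrix.det_transpose]
  exact mul_ne_zero hNdet hd

/-! ### the configuration -/

/-- the midpoints (doubled) of the chosen pairs -/
def cyMid (p : Fin 4 → (Fin 3 → ℝ) × (Fin 3 → ℝ)) : Fin 4 → Fin 3 → ℝ :=
  fun i r => (p i).1 r + (p i).2 r

theorem cySix_inj {u w u' w' : Fin 3 → ℝ} (h : cySix u w = cySix u' w') : u = u' ∧ w = w' := by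
  have e : ∀ k, cySix u w k = cySix u' w' k := fun k => congrFun h k
  have e0 := e 0
  have e1 := e 1
  have e2 := e 2
  have e3 := e 3
  have e4 := e 4
  have e5 := e 5
  simp only [cySix, Matrix.cons_val] at e0 e1 e2 e3 e4 e5
  constructor
  · funext k
    fin_cases k
    · exact e0
    · exact e1
    · exact e2
  · funext k
    fin_cases k
    · exact e3
    · exact e4
    · exact e5

theorem cySix_sub (u w u' w' : Fin 3 → ℝ) :
    cySix u w - cySix u' w' = cySix (u - u') (w - w') := by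
  funext k
  fin_cases k <;> simp [cySix]

theorem cyCr_sub (a a' m : Fin 3 → ℝ) (k : Fin 3) :
    cyCr (a - a') m k = cyCr a m k - cyCr a' m k := by
  fin_cases k <;> simp [cyCr] <;> ring

/-- the configuration of a family of motions -/
noncomputable def cyConf {N : ℕ} (g : Fin N → Matrix (Fin 3) (Fin 3) ℝ × (Fin 3 → ℝ))
    (p : Fin N → Fin 4 → (Fin 3 → ℝ) × (Fin 3 → ℝ)) (hg : Function.Injective g)
    (hQ : ∀ t, (g t).1ᵀ * (g t).1 = 1) (hd : ∀ t, (1 + (g t).1).det ≠ 0)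
    (hp : ∀ t i, (g t).1.mulVec (p t i).1 + (g t).2 = (p t i).2)
    (hai : ∀ t, AffineIndependent ℝ (fun i => (p t i).1)) :
    Conf (Fin N) (((Fin 3 → ℝ) × (Fin 3 → ℝ)) × Bool) where
  pt t := cySix (cyOm (g t)) (cyW (g t))
  fl t i := (p t i, decide (2 ≤ i.val))
  lab l := l.2
  M l := cyM (fun r => l.1.1 r + l.1.2 r)
  y _ t := cyOm (g t)
  A t := cyA (cyMid (p t))
  Ai t := (cyA (cyMid (p t)))⁻¹
  B t i := cyB (cyMid (p t)) i
  Bi t i := (cyB (cyMid (p t)) i)⁻¹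
  hA t := Matrix.mul_nonsing_inv _
    (isUnit_iff_ne_zero.2 (cyA_det _ (cyD_ne (hd t) (hp t) (hai t))))
  hA' t := Matrix.nonsing_inv_mul _
    (isUnit_iff_ne_zero.2 (cyA_det _ (cyD_ne (hd t) (hp t) (hai t))))
  hB t i := Matrix.mul_nonsing_inv _
    (isUnit_iff_ne_zero.2 (by rw [cyB_det]; exact cyD_ne (hd t) (hp t) (hai t)))
  hB' t i := Matrix.nonsing_inv_mul _
    (isUnit_iff_ne_zero.2 (by rw [cyB_det]; exact cyD_ne (hd t) (hp t) (hai t)))
  hMB t i := cy_MB (cyMid (p t)) i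
  hpt t i t' i' h := by
    have h1 : p t i = p t' i' := congrArg Prod.fst h
    show cySix (cyOm (g t')) (cyW (g t')) - cySix (cyOm (g t)) (cyW (g t)) =
      (cyM (fun r => (p t i).1 r + (p t i).2 r)).mulVec (cyOm (g t') - cyOm (g t))
    rw [cySix_sub, cyM_mulVec]
    congr 1
    funext k
    have e1 := cy_flat (hQ t) (hd t) (hp t i) k
    have e2 := cy_flat (hQ t') (hd t') (hp t' i') k
    rw [← h1] at e2
    rw [Pi.sub_apply, cyCr_sub]
    linarith
  hinj t t' h := by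
    obtain ⟨h1, h2⟩ := cySix_inj h
    exact hg (cy_inj (hQ t) (hd t) (hQ t') (hd t') h1 h2)
  hfl t := by
    intro i i' h
    have h1 : p t i = p t i' := congrArg Prod.fst h
    exact (hai t).injective (congrArg Prod.fst h1)
  hlab t i := rfl

theorem cy_mem_used {ι κ : Type} (c : Conf ι κ) (G : Finset ι) (b : Bool) (l : κ)
    (h : l ∈ c.used G b) : ∃ t i, c.fl t i = l ∧ c.lab l = b := by
  classical
  unfold Conf.used at h
  obtain ⟨h1, hlab⟩ := Finset.mem_filter.1 h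
  obtain ⟨t, _, ht⟩ := Finset.mem_biUnion.1 h1
  obtain ⟨i, _, hi⟩ := Finset.mem_image.1 ht
  exact ⟨t, i, hi, hlab⟩

theorem joints_cayley (S1 S2 : Finset ((Fin 3 → ℝ) × (Fin 3 → ℝ)))
    (G : Finset (Matrix (Fin 3) (Fin 3) ℝ × (Fin 3 → ℝ)))
    (hG : ∀ g ∈ G, Joint S1 S2 g) (hdet : ∀ g ∈ G, (1 + g.1).det ≠ 0) :
    G.card ≤ 5 * S1.card * S2.card := by
  classical
  set e := G.equivFin.symm with he
  have hQ : ∀ t, ((e t).1).1ᵀ * ((e t).1).1 = 1 := fun t => (hG _ (e t).2).1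
  have hd : ∀ t, (1 + ((e t).1).1).det ≠ 0 := fun t => hdet _ (e t).2
  have hex := fun t => (hG _ (e t).2).2.2
  choose p hp0 hp1 hp2 hp3 hp hai using hex
  have hinj : Function.Injective (fun t => (e t).1) := fun t t' h => e.injective (Subtype.ext h)
  set c := cyConf (fun t => (e t).1) p hinj hQ hd hp hai with hc
  have h1 := conf_bound c (Finset.univ : Finset (Fin G.card))
  rw [Finset.card_univ, Fintype.card_fin] at h1
  have hu : ∀ (b : Bool) (S : Finset ((Fin 3 → ℝ) × (Fin 3 → ℝ))),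
      (∀ t i, decide (2 ≤ (i : Fin 4).val) = b → p t i ∈ S) →
      (c.used Finset.univ b).card ≤ S.card := by
    intro b S hS
    have hsub : c.used Finset.univ b ⊆ S.image (fun q => (q, b)) := by
      intro l hl
      obtain ⟨t, i, hi, hlab⟩ := cy_mem_used c _ b l hl
      have h2 : l = (p t i, decide (2 ≤ i.val)) := hi.symm
      have h3 : decide (2 ≤ i.val) = b := by
        have h4 : l.2 = b := hlab
        rw [h2] at h4
        exact h4
      rw [Finset.mem_image]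
      exact ⟨p t i, hS t i h3, by rw [h2, h3]⟩
    exact (Finset.card_le_card hsub).trans Finset.card_image_le
  have hu1 := hu false S1 (fun t i hi => by
    fin_cases i
    · exact hp0 t
    · exact hp1 t
    · simp at hi
    · simp at hi)
  have hu2 := hu true S2 (fun t i hi => by
    fin_cases i
    · simp at hi
    · simp at hi
    · exact hp2 t
    · exact hp3 t)
  calc G.card ≤ 5 * (c.used Finset.univ false).card * (c.used Finset.univ true).card := h1
    _ ≤ 5 * S1.card * S2.card := Nat.mul_le_mul (Nat.mul_le_mul_left 5 hu1) hu2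

end Vale.Agent.P054.J
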