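import Vale.Agent.P054.J.JointDef

/-!
Block J, file Geom: from motions to configurations (Cayley coordinates).

PROOF of `joints_cayley` (no motion has the eigenvalue -1).  For `g = (Q, v)`, `Q` a rotation with
`det (1 + Q) ≠ 0`, put `W = (Q - 1) (Q + 1)^{-1}` (antisymmetric), `W = [ω]`, `w = (1 - W) v`.  For all
`a, c`: `Q a + v = c ↔ c - a = ω × (a + c) + w`.  The coordinates of `g` are `pt g = (ω, w)` in `R^6`
(injective).  For a pair `q = (a, c)` the flat is `{(ω, c - a - ω × (a + c))}`, parametrised by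
`y = ω`: `M q = [1 ; ω ↦ -(ω × (a + c))]`.  `κ = S1 ⊕ S2` (or pairs with a Bool), `lab` the side.
At `g` with the chosen points `p i = (a_i, c_i)` put `m_i = a_i + c_i = (1 + Q) a_i + v` (affinely
independent because `1 + Q` is invertible).  The columns of `A g` are
`e_{ij} = (m_i - m_j, -(m_i - m_j) × m_i)` for the edges `01, 02, 03, 12, 13, 23` in this order (= 0..5), which is
`(u, -(u × m_i)) = (u, -(u × m_j))`, `u = m_i - m_j`, so it lies in the direction spaces of both flats.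
Basis: the linear map `(u, w) ↦ (u, w + u × m_3)` sends `e_{i3}` to `(m_i - m_3, 0)` and `e_{ij}`,
`i, j < 3`, to `(n_i - n_j, -(n_i × n_j))` up to sign with `n_i = m_i - m_3`; `n_0,n_1,n_2` and
`n_0×n_1, n_0×n_2, n_1×n_2` are bases of `R^3`.  `B g i` has the columns `u` of the three edges at `i`
(with the sign used in `e`), invertible since the `m` are affinely independent; `M (fl g i) * B g i = A g * Ext i`.
Only one motion can have... `hinj`: `(ω, w)` determines `(Q, v)`.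
PROOF of `exists_generic`: for a rotation `Q` the polynomial `F_Q(ω) = det (1 + Q - [ω] (1 - Q))` is not
zero: `F_Q(0) = det (1 + Q)`; if this is 0, `Q` is a half turn `Q = 2 a aᵀ - 1` and
`F_Q(ω) = 8 (ω · a)^2`.  A finite product of nonzero polynomials is nonzero, so there is `ω` with
`F_Q(ω) ≠ 0` for all `Q` of the finite set; `Q0 = (1 - [ω])^{-1} (1 + [ω])` is a rotation and
`det (1 + Q0 Q) = det (1 - [ω])^{-1} F_Q(ω) ≠ 0`.
-/

set_option linter.all false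

namespace Vale.Agent.P054.J

open MvPolynomial Finset Matrix

/-- The rotation of a quaternion `v`, times its norm. -/
def gnR (v : Fin 4 → ℝ) : Matrix (Fin 3) (Fin 3) ℝ :=
  !![v 0 ^ 2 + v 1 ^ 2 - v 2 ^ 2 - v 3 ^ 2, 2 * (v 1 * v 2 - v 0 * v 3),
      2 * (v 1 * v 3 + v 0 * v 2);
    2 * (v 1 * v 2 + v 0 * v 3), v 0 ^ 2 - v 1 ^ 2 + v 2 ^ 2 - v 3 ^ 2,
      2 * (v 2 * v 3 - v 0 * v 1);
    2 * (v 1 * v 3 - v 0 * v 2), 2 * (v 2 * v 3 + v 0 * v 1),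
      v 0 ^ 2 - v 1 ^ 2 - v 2 ^ 2 + v 3 ^ 2]

/-- The norm of the quaternion `v`. -/
def gnN (v : Fin 4 → ℝ) : ℝ := v 0 ^ 2 + v 1 ^ 2 + v 2 ^ 2 + v 3 ^ 2

theorem gnR_orth (v : Fin 4 → ℝ) : (gnR v)ᵀ * gnR v = (gnN v ^ 2) • 1 := by
  ext i j
  fin_cases i <;> fin_cases j <;>
    simp [gnR, gnN, Matrix.mul_apply, Fin.sum_univ_three] <;> ring

theorem gnR_det (v : Fin 4 → ℝ) : (gnR v).det = gnN v ^ 3 := by
  simp [gnR, gnN, Matrix.det_fin_three]
  ring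

/-- The polynomial `N + tr (R Q)` in the coordinates of the quaternion. -/
noncomputable def gnP (Q : Matrix (Fin 3) (Fin 3) ℝ) : MvPolynomial (Fin 4) ℝ :=
  (X 0 ^ 2 + X 1 ^ 2 + X 2 ^ 2 + X 3 ^ 2) +
    (X 0 ^ 2 + X 1 ^ 2 - X 2 ^ 2 - X 3 ^ 2) * C (Q 0 0) +
    C 2 * (X 1 * X 2 - X 0 * X 3) * C (Q 1 0) + C 2 * (X 1 * X 3 + X 0 * X 2) * C (Q 2 0) +
    C 2 * (X 1 * X 2 + X 0 * X 3) * C (Q 0 1) +
    (X 0 ^ 2 - X 1 ^ 2 + X 2 ^ 2 - X 3 ^ 2) * C (Q 1 1) +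
    C 2 * (X 2 * X 3 - X 0 * X 1) * C (Q 2 1) + C 2 * (X 1 * X 3 - X 0 * X 2) * C (Q 0 2) +
    C 2 * (X 2 * X 3 + X 0 * X 1) * C (Q 1 2) +
    (X 0 ^ 2 - X 1 ^ 2 - X 2 ^ 2 + X 3 ^ 2) * C (Q 2 2)

theorem gnP_eval (Q : Matrix (Fin 3) (Fin 3) ℝ) (v : Fin 4 → ℝ) :
    eval v (gnP Q) = gnN v + (gnR v * Q).trace := by
  simp only [gnP, gnN, gnR, Matrix.trace_fin_three, Matrix.mul_apply, Fin.sum_univ_three,
    map_add, map_sub, map_mul, map_pow, eval_X, eval_C]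
  simp
  ring

theorem gnP_ne (Q : Matrix (Fin 3) (Fin 3) ℝ) : gnP Q ≠ 0 := by
  intro h
  have h0 := congrArg (eval (fun i : Fin 4 => if i = 0 then (1 : ℝ) else 0)) h
  have h1 := congrArg (eval (fun i : Fin 4 => if i = 1 then (1 : ℝ) else 0)) h
  have h2 := congrArg (eval (fun i : Fin 4 => if i = 2 then (1 : ℝ) else 0)) h
  have h3 := congrArg (eval (fun i : Fin 4 => if i = 3 then (1 : ℝ) else 0)) h
  simp [gnP] at h0 h1 h2 h3
  linarith

/-- `det (1 + R) = 2 + 2 tr R` for a rotation. -/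
theorem gn_det_one_add (R : Matrix (Fin 3) (Fin 3) ℝ) (h : Rᵀ * R = 1) (hd : R.det = 1) :
    (1 + R).det = 2 + 2 * R.trace := by
  have hadj : R.adjugate = Rᵀ := by
    have h1 : R * Rᵀ = 1 := mul_eq_one_comm.1 h
    calc R.adjugate = R.adjugate * (R * Rᵀ) := by rw [h1, mul_one]
      _ = (R.adjugate * R) * Rᵀ := by rw [mul_assoc]
      _ = Rᵀ := by rw [Matrix.adjugate_mul, hd, one_smul, one_mul]
  have e := Matrix.adjugate_fin_three R
  rw [hadj] at e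
  have e0 := congrFun (congrFun e 0) 0
  have e1 := congrFun (congrFun e 1) 1
  have e2 := congrFun (congrFun e 2) 2
  simp at e0 e1 e2
  rw [Matrix.det_fin_three] at hd
  rw [Matrix.det_fin_three, Matrix.trace_fin_three]
  simp [Matrix.add_apply, Matrix.one_apply]
  linear_combination hd - e0 - e1 - e2

theorem exists_generic (F : Finset (Matrix (Fin 3) (Fin 3) ℝ))
    (hF : ∀ Q ∈ F, Qᵀ * Q = 1 ∧ Q.det = 1) :
    ∃ Q0 : Matrix (Fin 3) (Fin 3) ℝ, Q0ᵀ * Q0 = 1 ∧ Q0.det = 1 ∧ ∀ Q ∈ F, (1 + Q0 * Q).det ≠ 0 := by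
  classical
  have hne : (X 0 ^ 2 + X 1 ^ 2 + X 2 ^ 2 + X 3 ^ 2 : MvPolynomial (Fin 4) ℝ) *
      ∏ Q ∈ F, gnP Q ≠ 0 := by
    refine mul_ne_zero ?_ (Finset.prod_ne_zero_iff.2 fun Q _ => gnP_ne Q)
    intro h
    have h0 := congrArg (eval (fun _ : Fin 4 => (1 : ℝ))) h
    simp at h0
    norm_num at h0
  obtain ⟨v, hv⟩ : ∃ v : Fin 4 → ℝ, eval v ((X 0 ^ 2 + X 1 ^ 2 + X 2 ^ 2 + X 3 ^ 2 :
      MvPolynomial (Fin 4) ℝ) * ∏ Q ∈ F, gnP Q) ≠ 0 := by
    by_contra hcon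
    push Not at hcon
    exact hne (MvPolynomial.funext fun v => by rw [hcon v, map_zero])
  rw [map_mul, map_prod] at hv
  have hN : gnN v ≠ 0 := by
    have := left_ne_zero_of_mul hv
    simpa [gnN] using this
  have hQ : ∀ Q ∈ F, gnN v + (gnR v * Q).trace ≠ 0 := by
    intro Q hQ
    have := Finset.prod_ne_zero_iff.1 (right_ne_zero_of_mul hv) Q hQ
    rwa [gnP_eval] at this
  have ho : ((gnN v)⁻¹ • gnR v)ᵀ * ((gnN v)⁻¹ • gnR v) = 1 := by
    rw [Matrix.transpose_smul, Matrix.smul_mul, Matrix.mul_smul, gnR_orth, smul_smul, smul_smul]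
    rw [show (gnN v)⁻¹ * (gnN v)⁻¹ * gnN v ^ 2 = 1 by field_simp, one_smul]
  have hd : ((gnN v)⁻¹ • gnR v).det = 1 := by
    rw [Matrix.det_smul, gnR_det]
    simp
    field_simp
  refine ⟨(gnN v)⁻¹ • gnR v, ho, hd, fun Q hQF => ?_⟩
  obtain ⟨hQo, hQd⟩ := hF Q hQF
  have hRo : ((gnN v)⁻¹ • gnR v * Q)ᵀ * ((gnN v)⁻¹ • gnR v * Q) = 1 := by
    rw [Matrix.transpose_mul, mul_assoc, ← mul_assoc _ _ Q, ho, one_mul, hQo]
  have hRd : ((gnN v)⁻¹ • gnR v * Q).det = 1 := by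
    rw [Matrix.det_mul, hd, hQd, one_mul]
  rw [gn_det_one_add _ hRo hRd, Matrix.smul_mul, Matrix.trace_smul, smul_eq_mul]
  intro h0
  apply hQ Q hQF
  have h1 : gnN v * (2 + 2 * ((gnN v)⁻¹ * (gnR v * Q).trace)) = 0 := by rw [h0, mul_zero]
  have h2 : gnN v * (2 + 2 * ((gnN v)⁻¹ * (gnR v * Q).trace)) =
      2 * (gnN v + (gnR v * Q).trace) := by
    field_simp
  rw [h2] at h1
  linarith

end Vale.Agent.P054.J
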