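import Vale.Agent.P054.J.JointDef

/-!
Block J, linear algebra of the Cayley coordinates: the six edge vectors of a nondegenerate
tetrahedron.
-/

set_option linter.all false

namespace Vale.Agent.P054.J

open Finset Matrix

/-- Direction matrix of the flat of a pair with `q = a + c`: `w ↦ (w, -(w × q))`. -/
def eM (q : Fin 3 → ℝ) : Matrix (Fin 6) (Fin 3) ℝ :=
  !![1, 0, 0; 0, 1, 0; 0, 0, 1; 0, -q 2, q 1; q 2, 0, -q 0; -q 1, q 0, 0]

/-- Edge vectors `m_i - m_j` in the order `01, 02, 03, 12, 13, 23`. -/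
def eU (m : Fin 4 → Fin 3 → ℝ) : Fin 6 → Fin 3 → ℝ :=
  ![m 0 - m 1, m 0 - m 2, m 0 - m 3, m 1 - m 2, m 1 - m 3, m 2 - m 3]

/-- First endpoint of an edge. -/
def eF : Fin 6 → Fin 4 := ![0, 0, 0, 1, 1, 2]

/-- The six edge vectors of `R^6` as columns. -/
def eA (m : Fin 4 → Fin 3 → ℝ) : Matrix (Fin 6) (Fin 6) ℝ :=
  fun k e => (eM (m (eF e))).mulVec (eU m e) k

/-- The three edges at the vertex `i` as columns. -/
def eB (m : Fin 4 → Fin 3 → ℝ) (i : Fin 4) : Matrix (Fin 3) (Fin 3) ℝ :=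
  fun k j => eU m (tri i j) k

/-- The volume of the tetrahedron. -/
def eD (m : Fin 4 → Fin 3 → ℝ) : ℝ :=
  (Matrix.of ![m 0 - m 3, m 1 - m 3, m 2 - m 3]).det

theorem eB_det (m : Fin 4 → Fin 3 → ℝ) (i : Fin 4) :
    (eB m i).det = eD m ∨ (eB m i).det = - eD m := by
  fin_cases i <;> simp [eB, eD, eU, tri, Matrix.det_fin_three] <;>
    first
      | (left; ring1)
      | (right; ring1)

theorem eB_det_ne (m : Fin 4 → Fin 3 → ℝ) (hD : eD m ≠ 0) (i : Fin 4) : (eB m i).det ≠ 0 := by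
  rcases eB_det m i with h | h <;> rw [h]
  · exact hD
  · exact neg_ne_zero.2 hD

theorem eM_mul_eB (m : Fin 4 → Fin 3 → ℝ) (i : Fin 4) :
    eM (m i) * eB m i = eA m * Ext i := by
  ext k j
  have h1 : (eA m * Ext i) k j = eA m k (tri i j) := by
    rw [Matrix.mul_apply]
    simp [Ext]
  rw [h1, Matrix.mul_apply]
  simp only [eA, Matrix.mulVec, dotProduct, Fin.sum_univ_three]
  fin_cases i <;> fin_cases j <;> fin_cases k <;>
    simp [eB, eM, eU, eF, tri] <;> ring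

theorem eA_det_ne (m : Fin 4 → Fin 3 → ℝ) (hD : eD m ≠ 0) : (eA m).det ≠ 0 := by
  intro h0
  obtain ⟨v, hv, hv0⟩ := Matrix.exists_mulVec_eq_zero_iff.2 h0
  have key : ∀ k, eA m k 0 * v 0 + eA m k 1 * v 1 + eA m k 2 * v 2 + eA m k 3 * v 3 +
      eA m k 4 * v 4 + eA m k 5 * v 5 = 0 := by
    intro k
    have := congrFun hv0 k
    simpa [Matrix.mulVec, dotProduct, Fin.sum_univ_six] using this
  have k0 := key 0
  have k1 := key 1
  have k2 := key 2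
  have k3 := key 3
  have k4 := key 4
  have k5 := key 5
  have hDe : eD m = (m 0 0 - m 3 0) * ((m 1 1 - m 3 1) * (m 2 2 - m 3 2) - (m 1 2 - m 3 2) * (m 2 1 - m 3 1))
      - (m 0 1 - m 3 1) * ((m 1 0 - m 3 0) * (m 2 2 - m 3 2) - (m 1 2 - m 3 2) * (m 2 0 - m 3 0))
      + (m 0 2 - m 3 2) * ((m 1 0 - m 3 0) * (m 2 1 - m 3 1) - (m 1 1 - m 3 1) * (m 2 0 - m 3 0)) := by
    simp [eD, Matrix.det_fin_three]; ring
  simp only [eA, Matrix.mulVec, dotProduct, Fin.sum_univ_three] at k0 k1 k2 k3 k4 k5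
  simp [eM, eU, eF] at k0 k1 k2 k3 k4 k5
  have e0 : v 0 * eD m = 0 := by
    rw [hDe]
    linear_combination -((m 2 0 - m 3 0) * (k3 - (m 3 1 * k2 - m 3 2 * k1)) + (m 2 1 - m 3 1) * (k4 - (m 3 2 * k0 - m 3 0 * k2)) + (m 2 2 - m 3 2) * (k5 - (m 3 0 * k1 - m 3 1 * k0)))
  have e1 : v 1 * eD m = 0 := by
    rw [hDe]
    linear_combination ((m 1 0 - m 3 0) * (k3 - (m 3 1 * k2 - m 3 2 * k1)) + (m 1 1 - m 3 1) * (k4 - (m 3 2 * k0 - m 3 0 * k2)) + (m 1 2 - m 3 2) * (k5 - (m 3 0 * k1 - m 3 1 * k0)))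
  have e3 : v 3 * eD m = 0 := by
    rw [hDe]
    linear_combination -((m 0 0 - m 3 0) * (k3 - (m 3 1 * k2 - m 3 2 * k1)) + (m 0 1 - m 3 1) * (k4 - (m 3 2 * k0 - m 3 0 * k2)) + (m 0 2 - m 3 2) * (k5 - (m 3 0 * k1 - m 3 1 * k0)))
  have z0 : v 0 = 0 := by
    rcases mul_eq_zero.1 e0 with h | h
    · exact h
    · exact absurd h hD
  have z1 : v 1 = 0 := by
    rcases mul_eq_zero.1 e1 with h | h
    · exact h
    · exact absurd h hD
  have z3 : v 3 = 0 := by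
    rcases mul_eq_zero.1 e3 with h | h
    · exact h
    · exact absurd h hD
  rw [z0, z1, z3] at k0 k1 k2
  have e2 : v 2 * eD m = 0 := by
    rw [hDe]
    linear_combination ((m 1 1 - m 3 1) * (m 2 2 - m 3 2) - (m 1 2 - m 3 2) * (m 2 1 - m 3 1)) * k0 + ((m 1 2 - m 3 2) * (m 2 0 - m 3 0) - (m 1 0 - m 3 0) * (m 2 2 - m 3 2)) * k1 + ((m 1 0 - m 3 0) * (m 2 1 - m 3 1) - (m 1 1 - m 3 1) * (m 2 0 - m 3 0)) * k2
  have e4 : v 4 * eD m = 0 := by
    rw [hDe]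
    linear_combination ((m 2 1 - m 3 1) * (m 0 2 - m 3 2) - (m 2 2 - m 3 2) * (m 0 1 - m 3 1)) * k0 + ((m 2 2 - m 3 2) * (m 0 0 - m 3 0) - (m 2 0 - m 3 0) * (m 0 2 - m 3 2)) * k1 + ((m 2 0 - m 3 0) * (m 0 1 - m 3 1) - (m 2 1 - m 3 1) * (m 0 0 - m 3 0)) * k2
  have e5 : v 5 * eD m = 0 := by
    rw [hDe]
    linear_combination ((m 0 1 - m 3 1) * (m 1 2 - m 3 2) - (m 0 2 - m 3 2) * (m 1 1 - m 3 1)) * k0 + ((m 0 2 - m 3 2) * (m 1 0 - m 3 0) - (m 0 0 - m 3 0) * (m 1 2 - m 3 2)) * k1 + ((m 0 0 - m 3 0) * (m 1 1 - m 3 1) - (m 0 1 - m 3 1) * (m 1 0 - m 3 0)) * k2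
  have z2 : v 2 = 0 := by
    rcases mul_eq_zero.1 e2 with h | h
    · exact h
    · exact absurd h hD
  have z4 : v 4 = 0 := by
    rcases mul_eq_zero.1 e4 with h | h
    · exact h
    · exact absurd h hD
  have z5 : v 5 = 0 := by
    rcases mul_eq_zero.1 e5 with h | h
    · exact h
    · exact absurd h hD
  apply hv
  ext k
  fin_cases k <;> simp [z0, z1, z2, z3, z4, z5]

theorem eD_ne_of_affine (a : Fin 4 → Fin 3 → ℝ) (h : AffineIndependent ℝ a) : eD a ≠ 0 := by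
  rw [affineIndependent_iff_linearIndependent_vsub ℝ a 3] at h
  have h2 : LinearIndependent ℝ (fun i : Fin 3 => a (Fin.castSucc i) - a 3) := by
    have := h.comp (fun i : Fin 3 => (⟨Fin.castSucc i, by
      intro h3
      have := congrArg Fin.val h3
      simp at this
      omega⟩ : {x : Fin 4 // x ≠ 3})) (by
        intro i j hij
        simpa [Fin.ext_iff] using hij)
    simpa [Function.comp_def] using this
  have h3 : (Matrix.of ![a 0 - a 3, a 1 - a 3, a 2 - a 3]).row =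
      (fun i : Fin 3 => a (Fin.castSucc i) - a 3) := by
    ext i j
    fin_cases i <;> simp [Matrix.row]
  rw [← h3, Matrix.linearIndependent_rows_iff_isUnit, Matrix.isUnit_iff_isUnit_det,
    isUnit_iff_ne_zero] at h2
  exact h2

theorem eD_affine (P : Matrix (Fin 3) (Fin 3) ℝ) (v : Fin 3 → ℝ) (a : Fin 4 → Fin 3 → ℝ) :
    eD (fun i => P.mulVec (a i) + v) = P.det * eD a := by
  have h1 : (Matrix.of ![P.mulVec (a 0) + v - (P.mulVec (a 3) + v), P.mulVec (a 1) + v - (P.mulVec (a 3) + v),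
      P.mulVec (a 2) + v - (P.mulVec (a 3) + v)]) = Matrix.of ![a 0 - a 3, a 1 - a 3, a 2 - a 3] * Pᵀ := by
    ext i j
    rw [Matrix.mul_apply]
    fin_cases i <;> simp [Matrix.mulVec, dotProduct, Fin.sum_univ_three] <;> ring
  unfold eD
  rw [h1, Matrix.det_mul, Matrix.det_transpose, mul_comm]

/-- The inverse matrices in the form required by `Conf`. -/
theorem eA_inv (m : Fin 4 → Fin 3 → ℝ) (hD : eD m ≠ 0) :
    eA m * (eA m)⁻¹ = 1 ∧ (eA m)⁻¹ * eA m = 1 :=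
  ⟨Matrix.mul_nonsing_inv _ (isUnit_iff_ne_zero.2 (eA_det_ne m hD)),
    Matrix.nonsing_inv_mul _ (isUnit_iff_ne_zero.2 (eA_det_ne m hD))⟩

theorem eB_inv (m : Fin 4 → Fin 3 → ℝ) (hD : eD m ≠ 0) (i : Fin 4) :
    eB m i * (eB m i)⁻¹ = 1 ∧ (eB m i)⁻¹ * eB m i = 1 :=
  ⟨Matrix.mul_nonsing_inv _ (isUnit_iff_ne_zero.2 (eB_det_ne m hD i)),
    Matrix.nonsing_inv_mul _ (isUnit_iff_ne_zero.2 (eB_det_ne m hD i))⟩

end Vale.Agent.P054.J
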