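import Vale.Agent.P054.J.Dim

/-!
Block J, file ExpCount: the number of leading exponents is at most the allocation.
-/

set_option linter.all false

namespace Vale.Agent.P054.J

open MvPolynomial Finset

theorem expcount_digit {N a a' X X' : ℕ} (ha : a < N) (ha' : a' < N)
    (h : a + N * X = a' + N * X') : a = a' ∧ X = X' := by
  have h1 : (a + N * X) % N = a := by rw [Nat.add_mul_mod_self_left, Nat.mod_eq_of_lt ha]
  have h2 : (a' + N * X') % N = a' := by rw [Nat.add_mul_mod_self_left, Nat.mod_eq_of_lt ha']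
  have h3 : a = a' := by rw [← h1, ← h2, h]
  refine ⟨h3, ?_⟩
  subst h3
  have h4 : N * X = N * X' := by omega
  exact Nat.eq_of_mul_eq_mul_left (by omega) h4

theorem expcount_wt_inj (n : ℕ) (i : Fin 4) (β β' : Fin 3 →₀ ℕ) (h : ∀ k, β k ≤ n)
    (h' : ∀ k, β' k ≤ n) (hw : wt3 n i β = wt3 n i β') : β = β' := by
  have key : ∀ e0 e1 e2 : ℕ, e0 < e1 → e1 < e2 →
      β 0 * (n + 1) ^ e0 + β 1 * (n + 1) ^ e1 + β 2 * (n + 1) ^ e2 =
        β' 0 * (n + 1) ^ e0 + β' 1 * (n + 1) ^ e1 + β' 2 * (n + 1) ^ e2 → β = β' := by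
    intro e0 e1 e2 h01 h12 he
    obtain ⟨d, rfl⟩ := Nat.exists_eq_add_of_lt h01
    obtain ⟨d', rfl⟩ := Nat.exists_eq_add_of_lt h12
    have e : ∀ x y z : ℕ, x * (n + 1) ^ e0 + y * (n + 1) ^ (e0 + d + 1) +
        z * (n + 1) ^ (e0 + d + 1 + d' + 1) =
        (n + 1) ^ e0 * (x + (n + 1) * ((n + 1) ^ d * (y + (n + 1) * ((n + 1) ^ d' * z)))) := by
      intros; ring
    rw [e, e] at he
    have p : ∀ u, 0 < (n + 1) ^ u := fun u => by positivity
    have he1 := Nat.eq_of_mul_eq_mul_left (p _) he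
    obtain ⟨h0, he2⟩ := expcount_digit (Nat.lt_succ_of_le (h 0)) (Nat.lt_succ_of_le (h' 0)) he1
    have he3 := Nat.eq_of_mul_eq_mul_left (p _) he2
    obtain ⟨h1, he4⟩ := expcount_digit (Nat.lt_succ_of_le (h 1)) (Nat.lt_succ_of_le (h' 1)) he3
    have h2 := Nat.eq_of_mul_eq_mul_left (p _) he4
    ext j
    fin_cases j
    · exact h0
    · exact h1
    · exact h2
  simp only [wt3, Fin.sum_univ_three] at hw
  fin_cases i
  · exact key 0 1 2 (by norm_num) (by norm_num) hw
  · exact key 0 3 4 (by norm_num) (by norm_num) hw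
  · exact key 1 3 5 (by norm_num) (by norm_num) hw
  · exact key 2 4 5 (by norm_num) (by norm_num) hw

theorem expcount_level (n : ℕ) (i : Fin 4) (k : ℕ)
    (W W' : Submodule ℝ (MvPolynomial (Fin 3) ℝ)) [FiniteDimensional ℝ W] (hW : W' ≤ W)
    (hdeg : ∀ q ∈ W, ∀ β, coeff β q ≠ 0 → ∀ j, β j ≤ n)
    (hW' : ∀ q ∈ W', ∀ β, deg3 β = k → coeff β q = 0)
    (E : Finset (Fin 3 →₀ ℕ))
    (hE : ∀ β ∈ E, deg3 β = k ∧ ∃ q ∈ W, coeff β q ≠ 0 ∧
      ∀ β', deg3 β' = k → coeff β' q ≠ 0 → wt3 n i β' ≤ wt3 n i β) :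
    E.card + Module.finrank ℝ W' ≤ Module.finrank ℝ W := by
  classical
  choose q hqW hq0 hqm using fun β : E => (hE β.1 β.2).2
  have hk : ∀ β : E, deg3 β.1 = k := fun β => (hE β.1 β.2).1
  let Ψ : W →ₗ[ℝ] (E → ℝ) := LinearMap.pi (fun β => (lcoeff ℝ β.1).comp W.subtype)
  have hΨ : ∀ (w : W) (β : E), Ψ w β = coeff β.1 w.1 := fun w β => rfl
  let v : E → LinearMap.range Ψ := fun β => ⟨Ψ ⟨q β, hqW β⟩, LinearMap.mem_range_self _ _⟩
  have hv : LinearIndependent ℝ v := by
    apply LinearIndependent.of_comp (LinearMap.range Ψ).subtype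
    rw [linearIndependent_iff']
    intro s a ha
    by_contra hne
    push Not at hne
    obtain ⟨β₁, hβ₁, ha₁⟩ := hne
    obtain ⟨β₀, hβ₀, hmax⟩ := (s.filter (fun β => a β ≠ 0)).exists_max_image
      (fun β => wt3 n i β.1) ⟨β₁, by simp [hβ₁, ha₁]⟩
    rw [Finset.mem_filter] at hβ₀
    have h1 := congrFun ha β₀
    simp only [Finset.sum_apply, Pi.smul_apply, Function.comp_apply, Pi.zero_apply] at h1
    rw [Finset.sum_eq_single β₀] at h1
    · have h2 : ((LinearMap.range Ψ).subtype (v β₀)) β₀ = coeff β₀.1 (q β₀) := rfl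
      rw [h2, smul_eq_mul] at h1
      rcases mul_eq_zero.1 h1 with h3 | h3
      · exact hβ₀.2 h3
      · exact hq0 β₀ h3
    · intro β hβ hβne
      have h2 : ((LinearMap.range Ψ).subtype (v β)) β₀ = coeff β₀.1 (q β) := rfl
      rw [h2, smul_eq_mul]
      by_cases h3 : a β = 0
      · rw [h3, zero_mul]
      · by_cases h4 : coeff β₀.1 (q β) = 0
        · rw [h4, mul_zero]
        · exfalso
          have h5 := hqm β β₀.1 (hk β₀) h4
          have h6 := hmax β (by rw [Finset.mem_filter]; exact ⟨hβ, h3⟩)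
          have h7 : wt3 n i β.1 = wt3 n i β₀.1 := le_antisymm h6 h5
          have h8 := expcount_wt_inj n i β.1 β₀.1 (hdeg _ (hqW β) _ (hq0 β))
            (hdeg _ (hqW β) _ h4) h7
          exact hβne (Subtype.ext h8)
    · intro h2
      exact absurd hβ₀.1 h2
  have hcard : E.card ≤ Module.finrank ℝ (LinearMap.range Ψ) := by
    have := hv.fintype_card_le_finrank
    rwa [Fintype.card_coe] at this
  have hker : Module.finrank ℝ W' ≤ Module.finrank ℝ (LinearMap.ker Ψ) := by
    have hmem : ∀ w : W', (Submodule.inclusion hW) w ∈ LinearMap.ker Ψ := by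
      intro w
      rw [LinearMap.mem_ker]
      ext β
      exact hW' w.1 w.2 β.1 (hk β)
    let f : W' →ₗ[ℝ] LinearMap.ker Ψ := (Submodule.inclusion hW).codRestrict _ hmem
    apply LinearMap.finrank_le_finrank_of_injective (f := f)
    intro x y hxy
    have h1 : (Submodule.inclusion hW) x = (Submodule.inclusion hW) y :=
      congrArg (fun z : LinearMap.ker Ψ => (z : W)) hxy
    exact Submodule.inclusion_injective hW h1
  have hrn := LinearMap.finrank_range_add_finrank_ker Ψ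
  omega

theorem EE_count {ι κ : Type} [LinearOrder ι] (c : Conf ι κ) (G : Finset ι) (γ : ι → ℕ) (n : ℕ)
    (g : ι) (hg : g ∈ G) (i : Fin 4) (R : ℕ) (hR : ∀ g' ∈ G, n + γ g' + 2 ≤ R) :
    (c.EE G γ n g i).Finite ∧ (c.EE G γ n g i).ncard ≤
      ball (fun m => DD n (c.inc G (c.fl g i)) (c.y (c.fl g i)) m) γ R g := by
  classical
  set S := c.inc G (c.fl g i) with hS
  set Z := c.Z g i with hZ
  have hDD : ∀ m, DD n S (c.y (c.fl g i)) m = DD n S Z m := by
    intro m
    apply DD_affine n S _ _ m (c.B g i) (c.Bi g i) (c.hB g i) (c.hB' g i) (c.y (c.fl g i) g)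
    intro g' _
    rw [hZ, Conf.Z, Matrix.mulVec_mulVec, c.hB, Matrix.one_mulVec]
    simp
  have hgS : g ∈ S := by
    rw [hS, Conf.inc, Finset.mem_filter]
    exact ⟨hg, i, rfl⟩
  have hZg : Z g = 0 := by
    rw [hZ, Conf.Z]; simp
  -- degree bound
  have hdegW : ∀ m, ∀ q ∈ VV n S Z m, ∀ β, coeff β q ≠ 0 → (∑ j, β j) ≤ n := by
    intro m q hq β hβ
    have h1 : q.totalDegree ≤ n := by
      rw [VV, Submodule.mem_inf, mem_restrictTotalDegree] at hq
      exact hq.1
    have h2 := le_totalDegree (p := q) (s := β) (by rwa [mem_support_iff])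
    rw [Finsupp.sum_fintype _ _ (fun _ => rfl)] at h2
    exact h2.trans h1
  have hle : ∀ β : Fin 3 →₀ ℕ, (∑ j, β j) ≤ n → ∀ j, β j ≤ n := by
    intro β hβ j
    exact (Finset.single_le_sum (f := fun j => β j) (fun _ _ => Nat.zero_le _)
      (Finset.mem_univ j)).trans hβ
  -- finiteness
  have hfin : (c.EE G γ n g i).Finite := by
    apply (Set.finite_Iic (Finsupp.equivFunOnFinite.symm (fun _ : Fin 3 => n))).subset
    rintro β ⟨t, _, _, q, hq, hβ, _⟩
    rw [Set.mem_Iic]
    intro j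
    exact hle β (hdegW _ q hq β hβ) j
  refine ⟨hfin, ?_⟩
  have hmono : ∀ t, VV n S Z (mle γ t g) ≤ VV n S Z (mlt γ t g) := by
    intro t q hq
    rw [VV, Submodule.mem_inf] at hq ⊢
    refine ⟨hq.1, ?_⟩
    have h1 := hq.2
    simp only [Submodule.mem_iInf, Submodule.restrictScalars_mem] at h1 ⊢
    intro g' hg'
    refine Ideal.pow_le_pow_right ?_ (h1 g' hg')
    unfold mlt mle
    split_ifs with ha hb hb
    · exact le_rfl
    · exact absurd ha.le hb
    · omega
    · exact le_rfl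
  have hlow : ∀ k, ∀ q ∈ VV n S Z (mle γ (k + γ g) g), ∀ β, deg3 β = k → coeff β q = 0 := by
    intro k q hq β hβ
    rw [VV, Submodule.mem_inf] at hq
    have h1 := hq.2
    simp only [Submodule.mem_iInf, Submodule.restrictScalars_mem] at h1
    have h2 := h1 g hgS
    rw [hZg] at h2
    have h3 : mle γ (k + γ g) g g = k + 1 := by
      unfold mle
      rw [if_pos le_rfl]
      omega
    rw [h3, mem_zero_pow_iff] at h2
    apply h2
    unfold deg3 at hβ
    omega
  have hfd : ∀ m, FiniteDimensional ℝ (VV n S Z m) := by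
    intro m
    exact Submodule.finiteDimensional_of_le (show VV n S Z m ≤ restrictTotalDegree (Fin 3) ℝ n from inf_le_left)
  have hlev : ∀ k, (hfin.toFinset.filter (fun β => deg3 β = k)).card ≤
      DD n S Z (mlt γ (k + γ g) g) - DD n S Z (mle γ (k + γ g) g) := by
    intro k
    haveI := hfd (mlt γ (k + γ g) g)
    have h1 := expcount_level n i k (VV n S Z (mlt γ (k + γ g) g)) (VV n S Z (mle γ (k + γ g) g))
      (hmono _) (fun q hq β hβ => hle β (hdegW _ q hq β hβ)) (hlow k)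
      (hfin.toFinset.filter (fun β => deg3 β = k)) (by
        intro β hβ
        rw [Finset.mem_filter, Set.Finite.mem_toFinset] at hβ
        obtain ⟨⟨t, _, ht, q, hq, hβ0, hβm⟩, hk⟩ := hβ
        refine ⟨hk, q, ?_, hβ0, ?_⟩
        · rw [← hk, ht]; exact hq
        · intro β' hβ' hc
          exact hβm β' (hβ'.trans hk.symm) hc)
    unfold DD
    omega
  rw [Set.ncard_eq_toFinset_card _ hfin]
  have hmaps : ∀ β ∈ hfin.toFinset, deg3 β ∈ Finset.range (n + 1) := by
    intro β hβ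
    rw [Set.Finite.mem_toFinset] at hβ
    obtain ⟨t, _, _, q, hq, hβ0, _⟩ := hβ
    rw [Finset.mem_range]
    have := hdegW _ q hq β hβ0
    unfold deg3
    omega
  rw [Finset.card_eq_sum_card_fiberwise hmaps]
  refine (Finset.sum_le_sum (fun k _ => hlev k)).trans ?_
  have himg : ∑ k ∈ Finset.range (n + 1), (DD n S Z (mlt γ (k + γ g) g) - DD n S Z (mle γ (k + γ g) g)) =
      ∑ t ∈ (Finset.range (n + 1)).image (fun k => k + γ g),
        (DD n S Z (mlt γ t g) - DD n S Z (mle γ t g)) := by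
    rw [Finset.sum_image]
    intro a _ b _ hab
    simpa using hab
  rw [himg]
  unfold ball
  simp only [hDD]
  apply Finset.sum_le_sum_of_subset
  intro t ht
  rw [Finset.mem_image] at ht
  obtain ⟨k, hk, rfl⟩ := ht
  rw [Finset.mem_range] at hk ⊢
  have := hR g hg
  omega

end Vale.Agent.P054.J
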