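import Vale.Agent.P054.J.Defs

/-!
Block J, file Shearer: the Finner/Shearer inequality for the four vertices of the tetrahedron
(every one of the six coordinates `0..5` occurs in exactly two of the triples `tri i`).

PROOF.  For fixed values of the coordinates `0` (= edge 12, in the triples 0 and 1) and `5`
(= edge 34, in the triples 2 and 3) the elements of `A` are determined by the restrictions 0, 1,
and by the restrictions 2, 3; so the number is at most
`min(|f0||f1|, |f2||f3|) ≤ (|f0||f1||f2||f3|)^(1/2)`.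
Then sum over the coordinates 0 and 5, and use Cauchy-Schwarz twice.
-/

set_option linter.all false

namespace Vale.Agent.P054.J

open Finset

theorem sum_fib_le (E : Finset (Fin 3 →₀ ℕ)) (k : Fin 3) (X : Finset ℕ) :
    ∑ x ∈ X, ((E.filter (fun β => β k = x)).card : ℝ) ≤ E.card := by
  have h := Finset.sum_card_fiberwise_eq_card_filter E X (fun β : Fin 3 →₀ ℕ => β k)
  have h2 : (E.filter (fun β => β k ∈ X)).card ≤ E.card := Finset.card_filter_le _ _
  rw [← h] at h2
  exact_mod_cast h2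

theorem cs_fib (E F : Finset (Fin 3 →₀ ℕ)) (k : Fin 3) (X : Finset ℕ) :
    (∑ x ∈ X, √((E.filter (fun β => β k = x)).card : ℝ) *
      √((F.filter (fun β => β k = x)).card : ℝ)) ^ 2 ≤ (E.card : ℝ) * F.card := by
  refine (Finset.sum_mul_sq_le_sq_mul_sq _ _ _).trans ?_
  have e : ∀ G : Finset (Fin 3 →₀ ℕ), ∑ x ∈ X, √((G.filter (fun β => β k = x)).card : ℝ) ^ 2 =
      ∑ x ∈ X, ((G.filter (fun β => β k = x)).card : ℝ) := fun G =>
    Finset.sum_congr rfl fun x _ => Real.sq_sqrt (Nat.cast_nonneg _)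
  rw [e, e]
  exact mul_le_mul (sum_fib_le E k X) (sum_fib_le F k X)
    (Finset.sum_nonneg fun x _ => Nat.cast_nonneg _) (Nat.cast_nonneg _)

theorem res3_apply (i : Fin 4) (α : Fin 6 →₀ ℕ) (k : Fin 3) : res3 i α k = α (tri i k) := rfl

theorem slice_le1 (E : Fin 4 → Finset (Fin 3 →₀ ℕ)) (A : Finset (Fin 6 →₀ ℕ))
    (hA : ∀ α ∈ A, ∀ i, res3 i α ∈ E i) (x y : ℕ) :
    (A.filter (fun α => α 0 = x ∧ α 5 = y)).card ≤
      ((E 0).filter (fun β => β 0 = x)).card * ((E 1).filter (fun β => β 0 = x)).card := by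
  rw [← Finset.card_product]
  refine Finset.card_le_card_of_injOn (fun α => (res3 0 α, res3 1 α)) ?_ ?_
  · intro α hα
    have hα' := Finset.mem_coe.1 hα
    rw [Finset.mem_filter] at hα'
    rw [Finset.mem_coe, Finset.mem_product, Finset.mem_filter, Finset.mem_filter]
    exact ⟨⟨hA α hα'.1 0, hα'.2.1⟩, ⟨hA α hα'.1 1, hα'.2.1⟩⟩
  · intro α hα β hβ hab
    have hα' := (Finset.mem_filter.1 (Finset.mem_coe.1 hα)).2
    have hβ' := (Finset.mem_filter.1 (Finset.mem_coe.1 hβ)).2
    rw [Prod.mk.injEq] at hab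
    have h0 : ∀ k, α (tri 0 k) = β (tri 0 k) := fun k => DFunLike.congr_fun hab.1 k
    have h1 : ∀ k, α (tri 1 k) = β (tri 1 k) := fun k => DFunLike.congr_fun hab.2 k
    have a1 : α 1 = β 1 := h0 1
    have a2 : α 2 = β 2 := h0 2
    have a3 : α 3 = β 3 := h1 1
    have a4 : α 4 = β 4 := h1 2
    have a0 : α 0 = β 0 := h0 0
    have a5 : α 5 = β 5 := hα'.2.trans hβ'.2.symm
    ext j
    fin_cases j
    · exact a0
    · exact a1
    · exact a2
    · exact a3
    · exact a4
    · exact a5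

theorem slice_le2 (E : Fin 4 → Finset (Fin 3 →₀ ℕ)) (A : Finset (Fin 6 →₀ ℕ))
    (hA : ∀ α ∈ A, ∀ i, res3 i α ∈ E i) (x y : ℕ) :
    (A.filter (fun α => α 0 = x ∧ α 5 = y)).card ≤
      ((E 2).filter (fun β => β 2 = y)).card * ((E 3).filter (fun β => β 2 = y)).card := by
  rw [← Finset.card_product]
  refine Finset.card_le_card_of_injOn (fun α => (res3 2 α, res3 3 α)) ?_ ?_
  · intro α hα
    have hα' := Finset.mem_coe.1 hα
    rw [Finset.mem_filter] at hα'
    rw [Finset.mem_coe, Finset.mem_product, Finset.mem_filter, Finset.mem_filter]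
    exact ⟨⟨hA α hα'.1 2, hα'.2.2⟩, ⟨hA α hα'.1 3, hα'.2.2⟩⟩
  · intro α hα β hβ hab
    have hα' := (Finset.mem_filter.1 (Finset.mem_coe.1 hα)).2
    have hβ' := (Finset.mem_filter.1 (Finset.mem_coe.1 hβ)).2
    rw [Prod.mk.injEq] at hab
    have h0 : ∀ k, α (tri 2 k) = β (tri 2 k) := fun k => DFunLike.congr_fun hab.1 k
    have h1 : ∀ k, α (tri 3 k) = β (tri 3 k) := fun k => DFunLike.congr_fun hab.2 k
    have a1 : α 1 = β 1 := h0 0
    have a3 : α 3 = β 3 := h0 1
    have a5 : α 5 = β 5 := h0 2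
    have a2 : α 2 = β 2 := h1 0
    have a4 : α 4 = β 4 := h1 1
    have a0 : α 0 = β 0 := hα'.1.trans hβ'.1.symm
    ext j
    fin_cases j
    · exact a0
    · exact a1
    · exact a2
    · exact a3
    · exact a4
    · exact a5

theorem shearer (E : Fin 4 → Finset (Fin 3 →₀ ℕ)) (A : Finset (Fin 6 →₀ ℕ))
    (hA : ∀ α ∈ A, ∀ i, res3 i α ∈ E i) : A.card ^ 2 ≤ ∏ i, (E i).card := by
  classical
  set X := A.image (fun α => α 0) with hX
  set Y := A.image (fun α => α 5) with hY
  set S : ℝ := ∑ x ∈ X, √(((E 0).filter (fun β => β 0 = x)).card : ℝ) *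
      √(((E 1).filter (fun β => β 0 = x)).card : ℝ) with hS
  set T : ℝ := ∑ y ∈ Y, √(((E 2).filter (fun β => β 2 = y)).card : ℝ) *
      √(((E 3).filter (fun β => β 2 = y)).card : ℝ) with hT
  have hcard : A.card = ∑ p ∈ X ×ˢ Y, (A.filter (fun α => (α 0, α 5) = p)).card := by
    refine Finset.card_eq_sum_card_fiberwise (f := fun α : Fin 6 →₀ ℕ => (α 0, α 5)) ?_
    intro α hα
    rw [Finset.mem_coe, Finset.mem_product]
    exact ⟨Finset.mem_image_of_mem _ (Finset.mem_coe.1 hα),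
      Finset.mem_image_of_mem _ (Finset.mem_coe.1 hα)⟩
  have hle : (A.card : ℝ) ≤ S * T := by
    rw [hcard, hS, hT, Finset.sum_mul_sum, Finset.sum_product]
    push_cast
    refine Finset.sum_le_sum fun x _ => Finset.sum_le_sum fun y _ => ?_
    have h1 := slice_le1 E A hA x y
    have h2 := slice_le2 E A hA x y
    have e : (A.filter (fun α => (α 0, α 5) = (x, y))) =
        A.filter (fun α => α 0 = x ∧ α 5 = y) := by
      apply Finset.filter_congr
      intro α _
      rw [Prod.mk.injEq]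
    rw [e]
    set N := (A.filter (fun α => α 0 = x ∧ α 5 = y)).card
    set a := ((E 0).filter (fun β => β 0 = x)).card
    set b := ((E 1).filter (fun β => β 0 = x)).card
    set c := ((E 2).filter (fun β => β 2 = y)).card
    set d := ((E 3).filter (fun β => β 2 = y)).card
    have h1' : (N : ℝ) ≤ a * b := by exact_mod_cast h1
    have h2' : (N : ℝ) ≤ c * d := by exact_mod_cast h2
    have hN : (0 : ℝ) ≤ N := Nat.cast_nonneg N
    rw [← Real.sqrt_mul (Nat.cast_nonneg _), ← Real.sqrt_mul (Nat.cast_nonneg _),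
      ← Real.sqrt_mul (by positivity)]
    refine Real.le_sqrt_of_sq_le ?_
    rw [sq]
    exact mul_le_mul h1' h2' hN (by positivity)
  have hS2 : S ^ 2 ≤ ((E 0).card : ℝ) * (E 1).card := cs_fib (E 0) (E 1) 0 X
  have hT2 : T ^ 2 ≤ ((E 2).card : ℝ) * (E 3).card := cs_fib (E 2) (E 3) 2 Y
  have hfin : (A.card : ℝ) ^ 2 ≤ ((E 0).card : ℝ) * (E 1).card * (((E 2).card : ℝ) * (E 3).card) := by
    calc (A.card : ℝ) ^ 2 ≤ (S * T) ^ 2 := pow_le_pow_left₀ (Nat.cast_nonneg _) hle 2
      _ = S ^ 2 * T ^ 2 := by ring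
      _ ≤ _ := mul_le_mul hS2 hT2 (sq_nonneg _) (by positivity)
  rw [Fin.prod_univ_four]
  have : ((A.card ^ 2 : ℕ) : ℝ) ≤ (((E 0).card * (E 1).card * (E 2).card * (E 3).card : ℕ) : ℝ) := by
    push_cast
    linarith
  exact_mod_cast this

end Vale.Agent.P054.J
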