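import Vale.Agent.P054.J.Key
import Vale.Agent.P054.J.ExpCount
import Vale.Agent.P054.J.Shearer

/-!
Block J, file Count: the dimension count.

PROOF.  Let `A_g` be the finite set of all `α : Fin 6 →₀ ℕ` with `res3 i α ∈ EE G γ n g i` for all `i`
(finite: `α` is determined by its restrictions).  By `key` the linear map
`P ↦ (coeff α (pull (A g) (pt g) P))_{g ∈ G, α ∈ A_g}` on `restrictTotalDegree (Fin 6) ℝ n` is
injective, so `(n+6).choose 6 = finrank ≤ ∑_g |A_g|`, and `|A_g|^2 ≤ ∏_i |EE_i| ≤ ∏_i ball` by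
`shearer`, `EE_count`.
-/

set_option linter.all false

namespace Vale.Agent.P054.J

open MvPolynomial Finset

theorem finrank_six (n : ℕ) :
    Module.finrank ℝ (MvPolynomial.restrictTotalDegree (Fin 6) ℝ n) = (n + 6).choose 6 := by
  classical
  have hset : {m : Fin 6 →₀ ℕ | (m.sum fun _ e => e) ≤ n} =
      (((Finset.range (n + 1)).biUnion fun j =>
        Finset.finsuppAntidiag (Finset.univ : Finset (Fin 6)) j : Finset (Fin 6 →₀ ℕ)) :
        Set (Fin 6 →₀ ℕ)) := by
    ext m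
    simp only [Set.mem_ofPred_eq, Finset.coe_biUnion, Set.mem_iUnion, Finset.mem_coe,
      Finset.mem_range, Finset.mem_finsuppAntidiag, Finset.subset_univ, and_true, exists_prop]
    rw [Finsupp.sum_fintype _ _ (fun _ => rfl)]
    constructor
    · intro h
      exact ⟨_, Nat.lt_succ_of_le h, rfl⟩
    · rintro ⟨j, hj, h⟩
      have h' : ∑ i, m i = j := h
      omega
  have h1 := Module.finrank_eq_nat_card_basis
    (basisRestrictSupport ℝ {m : Fin 6 →₀ ℕ | (m.sum fun _ e => e) ≤ n})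
  have h2 : Nat.card {m : Fin 6 →₀ ℕ | (m.sum fun _ e => e) ≤ n} = (n + 6).choose 6 := by
    rw [hset, Nat.card_coe_set_eq, Set.ncard_coe_finset, Finset.card_biUnion]
    · simp only [Finset.card_finsuppAntidiag_nat_eq_multichoose, Finset.card_univ, Fintype.card_fin]
      exact Nat.sum_range_multichoose n 6
    · intro i _ j _ hij
      rw [Function.onFun, Finset.disjoint_left]
      intro x hx hx'
      rw [Finset.mem_finsuppAntidiag] at hx hx'
      exact hij (hx.1.symm.trans hx'.1)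
  rw [h2] at h1
  exact h1

theorem cnt_res3_apply (i : Fin 4) (α : Fin 6 →₀ ℕ) (k : Fin 3) : res3 i α k = α (tri i k) := rfl

theorem cnt_res3_ext {α β : Fin 6 →₀ ℕ} (h : ∀ i, res3 i α = res3 i β) : α = β := by
  have h' : ∀ i k, α (tri i k) = β (tri i k) := by
    intro i k
    rw [← cnt_res3_apply, ← cnt_res3_apply, h i]
  ext e
  fin_cases e
  · exact h' 0 0
  · exact h' 0 1
  · exact h' 0 2
  · exact h' 1 1
  · exact h' 1 2
  · exact h' 2 2

theorem dim_le {ι κ : Type} [LinearOrder ι] (c : Conf ι κ) (G : Finset ι) (hG : G.Nonempty)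
    (γ : ι → ℕ) (n R : ℕ) (hR : ∀ g' ∈ G, n + γ g' + 2 ≤ R) :
    (((n + 6).choose 6 : ℕ) : ℝ) ≤ ∑ g ∈ G, Real.sqrt (∏ i : Fin 4,
      (ball (fun m => DD n (c.inc G (c.fl g i)) (c.y (c.fl g i)) m) γ R g : ℝ)) := by
  classical
  -- the finite sets of exponents
  have hfin : ∀ g ∈ G, {α : Fin 6 →₀ ℕ | ∀ i, res3 i α ∈ c.EE G γ n g i}.Finite := by
    intro g hg
    have hpi : {f : Fin 4 → (Fin 3 →₀ ℕ) | ∀ i, f i ∈ c.EE G γ n g i}.Finite :=
      Set.Finite.pi' (fun i => (EE_count c G γ n g hg i R hR).1)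
    refine Set.Finite.of_finite_image (f := fun α : Fin 6 →₀ ℕ => fun i : Fin 4 => res3 i α) ?_ ?_
    · refine hpi.subset ?_
      rintro _ ⟨α, hα, rfl⟩
      exact hα
    · intro α _ β _ hαβ
      exact cnt_res3_ext (fun i => congrFun hαβ i)
  let A : ι → Finset (Fin 6 →₀ ℕ) := fun g => if hg : g ∈ G then (hfin g hg).toFinset else ∅
  have hAmem : ∀ g ∈ G, ∀ α, α ∈ A g ↔ ∀ i, res3 i α ∈ c.EE G γ n g i := by
    intro g hg α
    simp only [A, dif_pos hg, Set.Finite.mem_toFinset, Set.mem_ofPred_eq]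
  -- the cardinality bound
  have hcard : ∀ g ∈ G, ((A g).card : ℝ) ≤ Real.sqrt (∏ i : Fin 4,
      (ball (fun m => DD n (c.inc G (c.fl g i)) (c.y (c.fl g i)) m) γ R g : ℝ)) := by
    intro g hg
    have hE : ∀ i, (c.EE G γ n g i).Finite := fun i => (EE_count c G γ n g hg i R hR).1
    have h1 := shearer (fun i => (hE i).toFinset) (A g) (by
      intro α hα i
      rw [Set.Finite.mem_toFinset]
      exact (hAmem g hg α).1 hα i)
    have h2 : ∏ i : Fin 4, ((hE i).toFinset).card ≤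
        ∏ i : Fin 4, ball (fun m => DD n (c.inc G (c.fl g i)) (c.y (c.fl g i)) m) γ R g := by
      apply Finset.prod_le_prod'
      intro i _
      rw [← Set.ncard_eq_toFinset_card _ (hE i)]
      exact (EE_count c G γ n g hg i R hR).2
    apply Real.le_sqrt_of_sq_le
    exact_mod_cast h1.trans h2
  -- the linear map
  let I : Type := Σ g : {g // g ∈ G}, {α // α ∈ A g.1}
  let Φ : MvPolynomial.restrictTotalDegree (Fin 6) ℝ n →ₗ[ℝ] (I → ℝ) :=
    LinearMap.pi (fun x : I => (MvPolynomial.lcoeff ℝ (x.2.1 : Fin 6 →₀ ℕ)).comp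
      ((pull (c.A x.1.1) (c.pt x.1.1)).toLinearMap.comp
        (MvPolynomial.restrictTotalDegree (Fin 6) ℝ n).subtype))
  have hinj : Function.Injective Φ := by
    rw [← LinearMap.ker_eq_bot, LinearMap.ker_eq_bot']
    intro P hP
    by_contra hne
    have hP0 : (P : MvPolynomial (Fin 6) ℝ) ≠ 0 := by
      intro h
      exact hne (Subtype.ext h)
    obtain ⟨g, hg, α, hα, hαE⟩ := key c G hG γ n P.1 hP0
      ((MvPolynomial.mem_restrictTotalDegree _ _ _).1 P.2)
    apply hα
    have := congrFun hP (⟨⟨g, hg⟩, ⟨α, (hAmem g hg α).2 hαE⟩⟩ : I)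
    exact this
  have hle := LinearMap.finrank_le_finrank_of_injective hinj
  rw [finrank_six, Module.finrank_fintype_fun_eq_card] at hle
  have hI : Fintype.card I = ∑ g ∈ G, (A g).card := by
    simp only [I, Fintype.card_sigma, Fintype.card_coe]
    exact Finset.sum_coe_sort G (fun g => (A g).card)
  rw [hI] at hle
  calc (((n + 6).choose 6 : ℕ) : ℝ) ≤ ((∑ g ∈ G, (A g).card : ℕ) : ℝ) := by exact_mod_cast hle
    _ = ∑ g ∈ G, ((A g).card : ℝ) := by push_cast; rfl
    _ ≤ _ := Finset.sum_le_sum hcard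

end Vale.Agent.P054.J
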