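import Mathlib

/-!
Block J of the n^(2/3-eps) project (helper54): motions with four affinely independent matched
points.  Final output (J/Main.lean): at most `5 * |S1| * |S2|` motions.
Vocabulary: `ptI x` the ideal of the point `x`, `VV n S x m` the polynomials of degree at most `n`
that vanish to order at least `m g` at `x g` for every `g` in `S`, `DD` its dimension.
-/

set_option linter.all false

namespace Vale.Agent.P054.J

open MvPolynomial Finset

/-- The ideal of all polynomials vanishing at the point `x`. -/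
noncomputable def ptI {σ : Type} (x : σ → ℝ) : Ideal (MvPolynomial σ ℝ) :=
  RingHom.ker (MvPolynomial.eval x)

/-- Pull back along the affine map `z ↦ M z + v`. -/
noncomputable def pull {a b : ℕ} (M : Matrix (Fin b) (Fin a) ℝ) (v : Fin b → ℝ) :
    MvPolynomial (Fin b) ℝ →ₐ[ℝ] MvPolynomial (Fin a) ℝ :=
  aeval (fun j => (∑ k, C (M j k) * X k) + C (v j))

/-- Polynomials in three variables of degree at most `n`, order at least `m g` at `x g`, `g ∈ S`. -/
noncomputable def VV {ι : Type} (n : ℕ) (S : Finset ι) (x : ι → Fin 3 → ℝ) (m : ι → ℕ) :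
    Submodule ℝ (MvPolynomial (Fin 3) ℝ) :=
  MvPolynomial.restrictTotalDegree (Fin 3) ℝ n ⊓
    ⨅ g ∈ S, ((ptI (x g)) ^ (m g)).restrictScalars ℝ

/-- The dimension of `VV`. -/
noncomputable def DD {ι : Type} (n : ℕ) (S : Finset ι) (x : ι → Fin 3 → ℝ) (m : ι → ℕ) : ℕ :=
  Module.finrank ℝ (VV n S x m)

/-- `T n`, the dimension of the polynomials of degree at most `n` in three variables. -/
def TT (n : ℕ) : ℕ := (n + 3).choose 3

/-- The three edges at the vertex `i` of the tetrahedron; the edges are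
`0 = 12, 1 = 13, 2 = 14, 3 = 23, 4 = 24, 5 = 34`. -/
def tri (i : Fin 4) : Fin 3 → Fin 6 :=
  match i with
  | 0 => ![0, 1, 2]
  | 1 => ![0, 3, 4]
  | 2 => ![1, 3, 5]
  | 3 => ![2, 4, 5]

/-- The inclusion `R^3 → R^6` of the coordinate space of the vertex `i`. -/
def Ext (i : Fin 4) : Matrix (Fin 6) (Fin 3) ℝ := fun e k => if e = tri i k then 1 else 0

/-- `mlt γ t g`: the orders known to be attained before the pair `(g, time t)` is treated. -/
def mlt {ι : Type} [LinearOrder ι] (γ : ι → ℕ) (t : ℕ) (g : ι) : ι → ℕ :=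
  fun g' => if g' < g then t + 1 - γ g' else t - γ g'

/-- `mle γ t g`: the orders attained after the pair `(g, time t)`. -/
def mle {ι : Type} [LinearOrder ι] (γ : ι → ℕ) (t : ℕ) (g : ι) : ι → ℕ :=
  fun g' => if g' ≤ g then t + 1 - γ g' else t - γ g'

/-- A configuration: points `pt g` of `R^6`; flats `κ` with direction matrix `M`; four flats through
every point, whose directions are the coordinate spaces `tri i` in the basis `A g` of `R^6`. -/
structure Conf (ι κ : Type) where
  pt : ι → Fin 6 → ℝ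
  fl : ι → Fin 4 → κ
  lab : κ → Bool
  M : κ → Matrix (Fin 6) (Fin 3) ℝ
  y : κ → ι → Fin 3 → ℝ
  A : ι → Matrix (Fin 6) (Fin 6) ℝ
  Ai : ι → Matrix (Fin 6) (Fin 6) ℝ
  B : ι → Fin 4 → Matrix (Fin 3) (Fin 3) ℝ
  Bi : ι → Fin 4 → Matrix (Fin 3) (Fin 3) ℝ
  hA : ∀ g, A g * Ai g = 1
  hA' : ∀ g, Ai g * A g = 1
  hB : ∀ g i, B g i * Bi g i = 1
  hB' : ∀ g i, Bi g i * B g i = 1
  hMB : ∀ g i, M (fl g i) * B g i = A g * Ext i
  hpt : ∀ g i g' i', fl g i = fl g' i' →
    pt g' - pt g = (M (fl g i)).mulVec (y (fl g i) g' - y (fl g i) g)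
  hinj : Function.Injective pt
  hfl : ∀ g, Function.Injective (fl g)
  hlab : ∀ g i, lab (fl g i) = decide (2 ≤ i.val)

variable {ι κ : Type}

/-- The points of `G` on the flat `l`. -/
noncomputable def Conf.inc (c : Conf ι κ) (G : Finset ι) (l : κ) : Finset ι := by
  classical exact G.filter (fun g => ∃ i, c.fl g i = l)

/-- The flats with label `b` used by `G`. -/
noncomputable def Conf.used (c : Conf ι κ) (G : Finset ι) (b : Bool) : Finset κ := by
  classical exact (G.biUnion (fun g => Finset.univ.image (c.fl g))).filter (fun l => c.lab l = b)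

/-- Coordinates of the points of the flat `fl g i`, centred at `g`. -/
noncomputable def Conf.Z (c : Conf ι κ) (g : ι) (i : Fin 4) (g' : ι) : Fin 3 → ℝ :=
  (c.Bi g i).mulVec (c.y (c.fl g i) g' - c.y (c.fl g i) g)

/-- Weight of an exponent on the coordinates of the vertex `i`. -/
def wt3 (n : ℕ) (i : Fin 4) (β : Fin 3 →₀ ℕ) : ℕ := ∑ k, β k * (n + 1) ^ (tri i k).val

/-- Total degree of an exponent in three variables. -/
def deg3 (β : Fin 3 →₀ ℕ) : ℕ := ∑ k, β k

/-- The leading exponents at `g` on the flat `fl g i`. -/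
def Conf.EE [LinearOrder ι] (c : Conf ι κ) (G : Finset ι) (γ : ι → ℕ) (n : ℕ) (g : ι) (i : Fin 4) :
    Set (Fin 3 →₀ ℕ) :=
  {β | ∃ t, γ g ≤ t ∧ deg3 β + γ g = t ∧
    ∃ q ∈ VV n (c.inc G (c.fl g i)) (c.Z g i) (mlt γ t g), coeff β q ≠ 0 ∧
      ∀ β', deg3 β' = deg3 β → coeff β' q ≠ 0 → wt3 n i β' ≤ wt3 n i β}

/-- Restriction of an exponent in six variables to the vertex `i`. -/
noncomputable def res3 (i : Fin 4) (α : Fin 6 →₀ ℕ) : Fin 3 →₀ ℕ :=
  Finsupp.equivFunOnFinite.symm (fun k => α (tri i k))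

/-- The allocation of the flat with data `D` to the point `g`. -/
def ball {ι : Type} [LinearOrder ι] (D : (ι → ℕ) → ℕ) (γ : ι → ℕ) (R : ℕ) (g : ι) : ℕ :=
  ∑ t ∈ Finset.range R, (D (mlt γ t g) - D (mle γ t g))

end Vale.Agent.P054.J
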