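import Vale.Agent.P054.J.DimA

/-! Block J, file DimB: shift and affine invariance. -/

set_option linter.all false

namespace Vale.Agent.P054.J

open MvPolynomial Finset

variable {ι : Type}

theorem dimB_deg (k : Fin 3) (r : ℝ) : (X k - C r : MvPolynomial (Fin 3) ℝ).totalDegree ≤ 1 := by
  refine (totalDegree_sub _ _).trans (max_le ?_ ?_)
  · exact (totalDegree_X k).le
  · rw [totalDegree_C]; exact Nat.zero_le _

/-- The product of the linear forms. -/
theorem dimB_form [DecidableEq ι] (h : ℕ) (S : Finset ι) (x : ι → Fin 3 → ℝ)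
    (hx : Set.InjOn x S) (hh : S.card ≤ h) (g : ι) (hg : g ∈ S) :
    ∃ L : MvPolynomial (Fin 3) ℝ, L.totalDegree ≤ h ∧ eval (x g) L ≠ 0 ∧
      ∀ g' ∈ S, g' ≠ g → L ∈ ptI (x g') := by
  have h1 : ∀ g' : ι, ∃ k : Fin 3, g' ∈ S → g' ≠ g → x g' k ≠ x g k := by
    intro g'
    by_cases h2 : g' ∈ S ∧ g' ≠ g
    · have h3 : x g' ≠ x g := fun h4 => h2.2 (hx h2.1 hg h4)
      obtain ⟨k, hk⟩ := Function.ne_iff.1 h3
      exact ⟨k, fun _ _ => hk⟩
    · exact ⟨0, fun a b => absurd ⟨a, b⟩ h2⟩
  choose k hk using h1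
  refine ⟨∏ g' ∈ S.erase g, (X (k g') - C (x g' (k g'))), ?_, ?_, ?_⟩
  · refine (totalDegree_finset_prod _ _).trans ?_
    refine (Finset.sum_le_sum fun g' _ => dimB_deg (k g') _).trans ?_
    rw [Finset.sum_const, smul_eq_mul, mul_one]
    exact (Finset.card_le_card (Finset.erase_subset _ _)).trans hh
  · rw [map_prod]
    refine Finset.prod_ne_zero_iff.2 fun g' hg' => ?_
    rw [Finset.mem_erase] at hg'
    simp only [map_sub, eval_X, eval_C]
    exact sub_ne_zero.2 (hk g' hg'.2 hg'.1).symm
  · intro g' hg' hne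
    refine Ideal.mem_of_dvd _ (Finset.dvd_prod_of_mem _ (Finset.mem_erase.2 ⟨hne, hg'⟩)) ?_
    rw [mem_ptI]
    simp

/-- Multiply by a product of at most `h` affine linear forms that vanish at the points `x g'`,
`g' ∈ S`, `g' ≠ g`, and not at `x g` (`mul_mem_cancel` gives the injectivity on the quotients). -/
theorem DD_shift [DecidableEq ι] (n h : ℕ) (S : Finset ι) (x : ι → Fin 3 → ℝ)
    (hx : Set.InjOn x S) (hh : S.card ≤ h) (m : ι → ℕ) (g : ι) (hg : g ∈ S) :
    DD n S x m + DD (n + h) S x (Function.update (fun g' => m g' + 1) g (m g + 1)) ≤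
      DD (n + h) S x (Function.update (fun g' => m g' + 1) g (m g)) +
        DD n S x (Function.update m g (m g + 1)) := by
  obtain ⟨L, hL1, hL2, hL3⟩ := dimB_form h S x hx hh g hg
  have hL0 : L ≠ 0 := by
    rintro rfl
    exact hL2 (map_zero _)
  have hinj : Function.Injective (LinearMap.mulLeft ℝ L) := by
    intro a b hab
    exact mul_left_cancel₀ hL0 hab
  have key := dimA_four
    (V := VV (n + h) S x (Function.update (fun g' => m g' + 1) g (m g)))
    (V1 := (VV n S x m).map (LinearMap.mulLeft ℝ L))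
    (V2 := VV (n + h) S x (Function.update (fun g' => m g' + 1) g (m g + 1)))
    (V3 := (VV n S x (Function.update m g (m g + 1))).map (LinearMap.mulLeft ℝ L)) ?_ ?_ ?_
  · have hf : ∀ W : Submodule ℝ (MvPolynomial (Fin 3) ℝ),
        Module.finrank ℝ (W.map (LinearMap.mulLeft ℝ L)) = Module.finrank ℝ W :=
      fun W => (Submodule.equivMapOfInjective _ hinj W).finrank_eq.symm
    rw [hf, hf] at key
    exact key
  · rintro q ⟨p, hp, rfl⟩
    rw [SetLike.mem_coe, dimA_mem] at hp
    rw [dimA_mem, LinearMap.mulLeft_apply]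
    refine ⟨?_, fun g' hg' => ?_⟩
    · rw [MvPolynomial.mem_restrictTotalDegree] at hp ⊢
      refine (totalDegree_mul _ _).trans ?_
      have := hp.1
      omega
    · by_cases hgg : g' = g
      · rw [hgg, Function.update_self]
        exact Ideal.mul_mem_left _ _ (hp.2 g hg)
      · rw [Function.update_of_ne hgg]
        have h2 := Ideal.mul_mem_mul (hL3 g' hg' hgg) (hp.2 g' hg')
        rwa [← pow_succ'] at h2
  · refine dimA_anti le_rfl fun g' _ => ?_
    by_cases hgg : g' = g
    · rw [hgg, Function.update_self, Function.update_self]; omega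
    · rw [Function.update_of_ne hgg, Function.update_of_ne hgg]
  · apply le_antisymm
    · rintro q ⟨⟨p, hp, rfl⟩, hq⟩
      refine ⟨p, ?_, rfl⟩
      rw [SetLike.mem_coe, dimA_mem] at hp hq ⊢
      refine ⟨hp.1, fun g' hg' => ?_⟩
      by_cases hgg : g' = g
      · have h2 := hq.2 g hg
        rw [Function.update_self, LinearMap.mulLeft_apply] at h2
        rw [hgg, Function.update_self]
        exact mul_mem_cancel _ _ _ _ hL2 h2
      · rw [Function.update_of_ne hgg]
        exact hp.2 g' hg'
    · rintro q ⟨p, hp, rfl⟩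
      rw [SetLike.mem_coe, dimA_mem] at hp
      refine ⟨⟨p, ?_, rfl⟩, ?_⟩
      · rw [SetLike.mem_coe, dimA_mem]
        refine ⟨hp.1, fun g' hg' => ?_⟩
        by_cases hgg : g' = g
        · have h2 := hp.2 g hg
          rw [Function.update_self] at h2
          rw [hgg]
          exact Ideal.pow_le_pow_right (Nat.le_succ _) h2
        · have h2 := hp.2 g' hg'
          rwa [Function.update_of_ne hgg] at h2
      · rw [SetLike.mem_coe, dimA_mem, LinearMap.mulLeft_apply]
        refine ⟨?_, fun g' hg' => ?_⟩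
        · rw [MvPolynomial.mem_restrictTotalDegree] at hp ⊢
          refine (totalDegree_mul _ _).trans ?_
          have := hp.1
          omega
        · by_cases hgg : g' = g
          · rw [hgg, Function.update_self]
            have h2 := hp.2 g hg
            rw [Function.update_self] at h2
            exact Ideal.mul_mem_left _ _ h2
          · rw [Function.update_of_ne hgg]
            have h3 := hp.2 g' hg'
            rw [Function.update_of_ne hgg] at h3
            have h2 := Ideal.mul_mem_mul (hL3 g' hg' hgg) h3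
            rwa [← pow_succ'] at h2

theorem dimB_le (n : ℕ) (S : Finset ι) (x x' : ι → Fin 3 → ℝ) (m : ι → ℕ)
    (B Bi : Matrix (Fin 3) (Fin 3) ℝ) (hB : B * Bi = 1) (v : Fin 3 → ℝ)
    (h : ∀ g ∈ S, x g = B.mulVec (x' g) + v) : DD n S x m ≤ DD n S x' m := by
  have h1 : ∀ p ∈ VV n S x m, (pull B v).toLinearMap p ∈ VV n S x' m := by
    intro p hp
    rw [dimA_mem] at hp ⊢
    refine ⟨?_, fun g hg => ?_⟩
    · rw [MvPolynomial.mem_restrictTotalDegree] at hp ⊢
      exact (pull_totalDegree_le B v p).trans hp.1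
    · refine pull_mem B v (x' g) (m g) p ?_
      rw [← h g hg]
      exact hp.2 g hg
  have h2 : Function.Injective ((pull B v).toLinearMap.restrict h1) := by
    intro p q hpq
    have h3 : pull B v p.1 = pull B v q.1 := congrArg Subtype.val hpq
    have h4 : ∀ P : MvPolynomial (Fin 3) ℝ, pull Bi (-(Bi.mulVec v)) (pull B v P) = P := by
      intro P
      rw [pull_pull, hB]
      have h5 : B.mulVec (-(Bi.mulVec v)) + v = 0 := by
        rw [Matrix.mulVec_neg, Matrix.mulVec_mulVec, hB, Matrix.one_mulVec]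
        exact neg_add_cancel v
      rw [h5, pull_one]
    apply Subtype.ext
    rw [← h4 p.1, ← h4 q.1, h3]
  exact LinearMap.finrank_le_finrank_of_injective h2

/-- Affine changes of coordinates do not change the dimension. -/
theorem DD_affine (n : ℕ) (S : Finset ι) (x x' : ι → Fin 3 → ℝ) (m : ι → ℕ)
    (B Bi : Matrix (Fin 3) (Fin 3) ℝ) (hB : B * Bi = 1) (hB' : Bi * B = 1) (v : Fin 3 → ℝ)
    (h : ∀ g ∈ S, x g = B.mulVec (x' g) + v) : DD n S x m = DD n S x' m := by
  refine le_antisymm (dimB_le n S x x' m B Bi hB v h)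
    (dimB_le n S x' x m Bi B hB' (-(Bi.mulVec v)) fun g hg => ?_)
  rw [h g hg, Matrix.mulVec_add, Matrix.mulVec_mulVec, hB', Matrix.one_mulVec,
    add_neg_cancel_right]

end Vale.Agent.P054.J
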