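import Vale.Agent.P054.J.PtI

/-! Block J, file DimA: properties of the dimension function. -/

set_option linter.all false

namespace Vale.Agent.P054.J

open MvPolynomial Finset

variable {ι : Type}

theorem dimA_mem {n : ℕ} {S : Finset ι} {x : ι → Fin 3 → ℝ} {m : ι → ℕ}
    {p : MvPolynomial (Fin 3) ℝ} :
    p ∈ VV n S x m ↔ p ∈ MvPolynomial.restrictTotalDegree (Fin 3) ℝ n ∧
      ∀ g ∈ S, p ∈ ptI (x g) ^ m g := by
  unfold VV
  rw [Submodule.mem_inf]
  simp only [Submodule.mem_iInf]
  rfl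

instance dimA_fin (n : ℕ) (S : Finset ι) (x : ι → Fin 3 → ℝ) (m : ι → ℕ) :
    Module.Finite ℝ (VV n S x m) := by
  have h : VV n S x m ≤ MvPolynomial.restrictTotalDegree (Fin 3) ℝ n := inf_le_left
  exact Module.Finite.of_injective (Submodule.inclusion h) (Submodule.inclusion_injective h)

theorem dimA_anti {n n' : ℕ} {S : Finset ι} {x : ι → Fin 3 → ℝ} {m m' : ι → ℕ}
    (hn : n ≤ n') (h : ∀ g ∈ S, m g ≤ m' g) : VV n S x m' ≤ VV n' S x m := by
  intro p hp
  rw [dimA_mem] at hp ⊢
  refine ⟨?_, fun g hg => Ideal.pow_le_pow_right (h g hg) (hp.2 g hg)⟩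
  rw [MvPolynomial.mem_restrictTotalDegree] at hp ⊢
  exact hp.1.trans hn

theorem DD_congr (n : ℕ) (S : Finset ι) (x : ι → Fin 3 → ℝ) (m m' : ι → ℕ)
    (h : ∀ g ∈ S, m g = m' g) : DD n S x m = DD n S x m' := by
  unfold DD
  rw [le_antisymm (dimA_anti le_rfl fun g hg => (h g hg).ge)
    (dimA_anti le_rfl fun g hg => (h g hg).le)]

theorem DD_anti (n : ℕ) (S : Finset ι) (x : ι → Fin 3 → ℝ) (m m' : ι → ℕ)
    (h : ∀ g, m g ≤ m' g) : DD n S x m' ≤ DD n S x m :=
  Submodule.finrank_mono (dimA_anti le_rfl fun g _ => h g)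

theorem dimA_four {V V1 V2 V3 : Submodule ℝ (MvPolynomial (Fin 3) ℝ)} [Module.Finite ℝ V]
    (h1 : V1 ≤ V) (h2 : V2 ≤ V) (h3 : V1 ⊓ V2 = V3) :
    Module.finrank ℝ V1 + Module.finrank ℝ V2 ≤ Module.finrank ℝ V + Module.finrank ℝ V3 := by
  have : Module.Finite ℝ V1 :=
    Module.Finite.of_injective (Submodule.inclusion h1) (Submodule.inclusion_injective h1)
  have : Module.Finite ℝ V2 :=
    Module.Finite.of_injective (Submodule.inclusion h2) (Submodule.inclusion_injective h2)
  rw [← Submodule.finrank_sup_add_finrank_inf_eq, h3]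
  exact Nat.add_le_add_right (Submodule.finrank_mono (sup_le h1 h2)) _

/-- `VV m' ⊓ VV (m + e_g) = VV (m' + e_g)`, both are contained in `VV m`. -/
theorem DD_submod [DecidableEq ι] (n : ℕ) (S : Finset ι) (x : ι → Fin 3 → ℝ) (m m' : ι → ℕ) (g : ι)
    (h : ∀ g', m g' ≤ m' g') (hg : m g = m' g) :
    DD n S x m' + DD n S x (Function.update m g (m g + 1)) ≤
      DD n S x m + DD n S x (Function.update m' g (m' g + 1)) := by
  refine dimA_four (dimA_anti le_rfl fun g' _ => h g') (dimA_anti le_rfl fun g' _ => ?_) ?_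
  · by_cases hgg : g' = g
    · rw [hgg, Function.update_self]; omega
    · rw [Function.update_of_ne hgg]
  · refine le_antisymm ?_ (le_inf (dimA_anti le_rfl fun g' _ => ?_)
      (dimA_anti le_rfl fun g' _ => ?_))
    · rintro p ⟨hp1, hp2⟩
      rw [SetLike.mem_coe, dimA_mem] at hp1 hp2
      rw [dimA_mem]
      refine ⟨hp1.1, fun g' hg' => ?_⟩
      by_cases hgg : g' = g
      · have h1 := hp2.2 g' hg'
        rw [hgg, Function.update_self] at h1 ⊢
        rw [← hg]
        exact h1
      · rw [Function.update_of_ne hgg]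
        exact hp1.2 g' hg'
    · by_cases hgg : g' = g
      · rw [hgg, Function.update_self]; omega
      · rw [Function.update_of_ne hgg]
    · by_cases hgg : g' = g
      · rw [hgg, Function.update_self, Function.update_self, hg]
      · rw [Function.update_of_ne hgg, Function.update_of_ne hgg]
        exact h g'

/-- `VV n m ⊓ VV n' m' = VV n m'`, both are contained in `VV n' m`. -/
theorem DD_mono (n n' : ℕ) (S : Finset ι) (x : ι → Fin 3 → ℝ) (m m' : ι → ℕ)
    (hn : n ≤ n') (h : ∀ g, m g ≤ m' g) :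
    DD n S x m + DD n' S x m' ≤ DD n' S x m + DD n S x m' := by
  refine dimA_four (dimA_anti hn fun g' _ => le_rfl) (dimA_anti le_rfl fun g' _ => h g') ?_
  refine le_antisymm ?_ (le_inf (dimA_anti le_rfl fun g' _ => h g')
    (dimA_anti hn fun g' _ => le_rfl))
  rintro p ⟨hp1, hp2⟩
  rw [SetLike.mem_coe, dimA_mem] at hp1 hp2
  rw [dimA_mem]
  exact ⟨hp1.1, hp2.2⟩

theorem dimA_card (n : ℕ) :
    Nat.card {α : Fin 3 →₀ ℕ | (α.sum fun _ e => e) ≤ n} = (n + 3).choose 3 := by
  classical
  induction n with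
  | zero =>
    have h : {α : Fin 3 →₀ ℕ | (α.sum fun _ e => e) ≤ 0} = {0} := by
      ext α
      simp only [Set.mem_setOf_eq, Nat.le_zero, Set.mem_singleton_iff]
      rw [Finsupp.sum_fintype _ _ (fun _ => rfl)]
      constructor
      · intro h
        ext i
        exact (Finset.sum_eq_zero_iff.1 h) i (Finset.mem_univ i)
      · rintro rfl
        simp
    rw [h]
    simp
  | succ n ih =>
    have h1 : {α : Fin 3 →₀ ℕ | (α.sum fun _ e => e) ≤ n + 1} =
        {α : Fin 3 →₀ ℕ | (α.sum fun _ e => e) ≤ n} ∪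
          (Finset.finsuppAntidiag (Finset.univ : Finset (Fin 3)) (n + 1) : Set (Fin 3 →₀ ℕ)) := by
      ext α
      simp only [Set.mem_setOf_eq, Set.mem_union, Finset.mem_coe, Finset.mem_finsuppAntidiag]
      rw [Finsupp.sum_fintype _ _ (fun _ => rfl)]
      constructor
      · intro h
        rcases Nat.lt_or_ge n (∑ i, α i) with h2 | h2
        · exact Or.inr ⟨le_antisymm h h2, Finset.subset_univ _⟩
        · exact Or.inl h2
      · rintro (h | h)
        · omega
        · rw [h.1]
    have hfin : {α : Fin 3 →₀ ℕ | (α.sum fun _ e => e) ≤ n}.Finite := by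
      refine Set.Finite.subset (Set.toFinite
        (↑((Finset.range (n + 1)).biUnion fun k =>
          Finset.finsuppAntidiag (Finset.univ : Finset (Fin 3)) k) : Set (Fin 3 →₀ ℕ))) ?_
      intro α hα
      simp only [Set.mem_setOf_eq] at hα
      rw [Finsupp.sum_fintype _ _ (fun _ => rfl)] at hα
      rw [Finset.mem_coe, Finset.mem_biUnion]
      exact ⟨_, Finset.mem_range.2 (Nat.lt_succ_of_le hα),
        Finset.mem_finsuppAntidiag.2 ⟨rfl, Finset.subset_univ _⟩⟩
    rw [Nat.card_coe_set_eq] at ih ⊢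
    rw [h1, Set.ncard_union_eq ?_ hfin (Finset.finite_toSet _), ih, Set.ncard_coe_finset,
      Finset.card_finsuppAntidiag_nat_eq_choose]
    · rw [Finset.card_univ, Fintype.card_fin]
      have h2 : (3 + (n + 1) - 1).choose (n + 1) = (n + 3).choose 2 := by
        rw [show 3 + (n + 1) - 1 = n + 3 by omega]
        exact (Nat.choose_symm_of_eq_add (show n + 3 = n + 1 + 2 by omega))
      rw [h2, show n + 1 + 3 = (n + 3) + 1 by ring, Nat.choose_succ_succ (n + 3) 2]
      ring
    · rw [Set.disjoint_left]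
      intro α hα hα'
      simp only [Set.mem_setOf_eq] at hα
      rw [Finsupp.sum_fintype _ _ (fun _ => rfl)] at hα
      rw [Finset.mem_coe, Finset.mem_finsuppAntidiag] at hα'
      rw [hα'.1] at hα
      omega

theorem DD_zero (n : ℕ) (S : Finset ι) (x : ι → Fin 3 → ℝ) : DD n S x (fun _ => 0) = TT n := by
  have h : VV n S x (fun _ => 0) = MvPolynomial.restrictTotalDegree (Fin 3) ℝ n := by
    ext p
    rw [dimA_mem]
    refine ⟨fun h => h.1, fun h => ⟨h, fun g _ => ?_⟩⟩
    rw [pow_zero, Ideal.one_eq_top]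
    trivial
  unfold DD TT
  rw [h, ← dimA_card]
  exact Module.finrank_eq_nat_card_basis (basisRestrictSupport ℝ _)

theorem DD_top (n : ℕ) (S : Finset ι) (x : ι → Fin 3 → ℝ) (m : ι → ℕ) (g : ι) (hg : g ∈ S)
    (h : n + 1 ≤ m g) : DD n S x m = 0 := by
  have h1 : VV n S x m = ⊥ := by
    rw [eq_bot_iff]
    intro p hp
    rw [dimA_mem] at hp
    rw [Submodule.mem_bot]
    by_contra hne
    exact not_mem_of_degree (x g) p hne n ((mem_restrictTotalDegree _ _ _).1 hp.1)
      (Ideal.pow_le_pow_right h (hp.2 g hg))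
  unfold DD
  rw [h1, finrank_bot]

end Vale.Agent.P054.J
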