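import Vale.Agent.P054.J.Cayley
import Vale.Agent.P054.J.Generic

/-! Block J, output. Replace every target `c` by `Q0 c` and every `(Q, v)` by `(Q0 Q, Q0 v)`. -/

set_option linter.all false

namespace Vale.Agent.P054.J

open MvPolynomial Finset Matrix

/-- Output of block J. -/
theorem simplex_joints (S1 S2 : Finset ((Fin 3 → ℝ) × (Fin 3 → ℝ)))
    (G : Finset (Matrix (Fin 3) (Fin 3) ℝ × (Fin 3 → ℝ)))
    (hG : ∀ g ∈ G, Joint S1 S2 g) : G.card ≤ 5 * S1.card * S2.card := by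
  classical
  obtain ⟨Q0, ho, hd, hne⟩ := exists_generic (G.image Prod.fst) (by
    intro Q hQ
    obtain ⟨g, hg, rfl⟩ := Finset.mem_image.1 hQ
    exact ⟨(hG g hg).1, (hG g hg).2.1⟩)
  have hinj : Function.Injective (fun v : Fin 3 → ℝ => Q0.mulVec v) := by
    intro v w h
    have h1 := congrArg (fun u => Q0ᵀ.mulVec u) h
    simpa [Matrix.mulVec_mulVec, ho] using h1
  let φ : Matrix (Fin 3) (Fin 3) ℝ × (Fin 3 → ℝ) → Matrix (Fin 3) (Fin 3) ℝ × (Fin 3 → ℝ) :=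
    fun g => (Q0 * g.1, Q0.mulVec g.2)
  have hφ : Function.Injective φ := by
    intro g g' h
    have h1 : Q0 * g.1 = Q0 * g'.1 := congrArg Prod.fst h
    have h2 : Q0.mulVec g.2 = Q0.mulVec g'.2 := congrArg Prod.snd h
    refine Prod.ext ?_ (hinj h2)
    have h3 := congrArg (fun M => Q0ᵀ * M) h1
    simpa [← Matrix.mul_assoc, ho] using h3
  let ψ : (Fin 3 → ℝ) × (Fin 3 → ℝ) → (Fin 3 → ℝ) × (Fin 3 → ℝ) :=
    fun q => (q.1, Q0.mulVec q.2)
  have hJ : ∀ g ∈ G.image φ, Joint (S1.image ψ) (S2.image ψ) g := by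
    intro g' hg'
    obtain ⟨g, hg, rfl⟩ := Finset.mem_image.1 hg'
    obtain ⟨h1, h2, p, hp0, hp1, hp2, hp3, hpe, hai⟩ := hG g hg
    refine ⟨?_, ?_, fun i => ψ (p i), Finset.mem_image_of_mem _ hp0, Finset.mem_image_of_mem _ hp1,
      Finset.mem_image_of_mem _ hp2, Finset.mem_image_of_mem _ hp3, ?_, hai⟩
    · show (Q0 * g.1)ᵀ * (Q0 * g.1) = 1
      rw [Matrix.transpose_mul, Matrix.mul_assoc, ← Matrix.mul_assoc Q0ᵀ, ho, Matrix.one_mul, h1]
    · show (Q0 * g.1).det = 1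
      rw [Matrix.det_mul, hd, h2, one_mul]
    · intro i
      show (Q0 * g.1).mulVec (p i).1 + Q0.mulVec g.2 = Q0.mulVec (p i).2
      rw [← hpe i, Matrix.mulVec_add, Matrix.mulVec_mulVec]
  have hdet : ∀ g ∈ G.image φ, (1 + g.1).det ≠ 0 := by
    intro g' hg'
    obtain ⟨g, hg, rfl⟩ := Finset.mem_image.1 hg'
    exact hne g.1 (Finset.mem_image_of_mem _ hg)
  have h := joints_cayley _ _ _ hJ hdet
  rw [Finset.card_image_of_injective _ hφ] at h
  calc G.card ≤ 5 * (S1.image ψ).card * (S2.image ψ).card := h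
    _ ≤ 5 * S1.card * S2.card :=
      Nat.mul_le_mul (Nat.mul_le_mul le_rfl Finset.card_image_le) Finset.card_image_le

end Vale.Agent.P054.J
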