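import Vale.Agent.P054.J.Defs

set_option linter.all false

namespace Vale.Agent.P054.J

open MvPolynomial Finset Matrix

/-- `g = (Q, v)` matches four affinely independent points, two from each family. -/
def Joint (S1 S2 : Finset ((Fin 3 → ℝ) × (Fin 3 → ℝ)))
    (g : Matrix (Fin 3) (Fin 3) ℝ × (Fin 3 → ℝ)) : Prop :=
  g.1ᵀ * g.1 = 1 ∧ g.1.det = 1 ∧
    ∃ p : Fin 4 → (Fin 3 → ℝ) × (Fin 3 → ℝ), p 0 ∈ S1 ∧ p 1 ∈ S1 ∧ p 2 ∈ S2 ∧ p 3 ∈ S2 ∧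
      (∀ i, g.1.mulVec (p i).1 + g.2 = (p i).2) ∧ AffineIndependent ℝ (fun i => (p i).1)

end Vale.Agent.P054.J
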