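import Vale.Agent.P054.J.KeyA

/-!
Block J, file KeyB (helper275): proof of `key`.
-/

set_option linter.all false

namespace Vale.Agent.P054.J

open MvPolynomial Finset

/-- the order of a polynomial at a point -/
theorem key_order {a : ℕ} (x : Fin a → ℝ) (P : MvPolynomial (Fin a) ℝ) (hP : P ≠ 0) (n : ℕ)
    (hdeg : P.totalDegree ≤ n) : ∃ r : ℕ, P ∈ ptI x ^ r ∧ P ∉ ptI x ^ (r + 1) := by
  classical
  have h : ∃ r : ℕ, P ∉ ptI x ^ (r + 1) := ⟨n, not_mem_of_degree x P hP n hdeg⟩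
  refine ⟨Nat.find h, ?_, Nat.find_spec h⟩
  rcases hk : Nat.find h with _ | k
  · simp
  · have h1 := Nat.find_min h (m := k) (by omega)
    exact not_not.1 h1

/-- the smallest element of `G` attaining the minimum of `w` -/
theorem key_min {ι : Type} [LinearOrder ι] (G : Finset ι) (hG : G.Nonempty) (w : ι → ℕ) :
    ∃ g ∈ G, (∀ g' ∈ G, w g ≤ w g') ∧ ∀ g' ∈ G, g' < g → w g + 1 ≤ w g' := by
  obtain ⟨g₀, hg₀, hmin⟩ := G.exists_min_image w hG
  have hne : (G.filter (fun g => w g = w g₀)).Nonempty := ⟨g₀, Finset.mem_filter.2 ⟨hg₀, rfl⟩⟩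
  obtain ⟨g, hg⟩ : ∃ g, g = (G.filter (fun g => w g = w g₀)).min' hne := ⟨_, rfl⟩
  have h1 : g ∈ G.filter (fun g => w g = w g₀) := by rw [hg]; exact Finset.min'_mem _ _
  rw [Finset.mem_filter] at h1
  refine ⟨g, h1.1, fun g' hg' => ?_, fun g' hg' hlt => ?_⟩
  · rw [h1.2]
    exact hmin g' hg'
  · rw [h1.2]
    have h2 := hmin g' hg'
    by_contra hcon
    have h3 : w g' = w g₀ := by omega
    have h4 : g ≤ g' := by
      rw [hg]
      exact Finset.min'_le _ _ (Finset.mem_filter.2 ⟨hg', h3⟩)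
    exact absurd hlt (not_lt.2 h4)

theorem key' {ι κ : Type} [LinearOrder ι] (c : Conf ι κ) (G : Finset ι) (hG : G.Nonempty)
    (γ : ι → ℕ) (n : ℕ) (P : MvPolynomial (Fin 6) ℝ) (hP : P ≠ 0) (hdeg : P.totalDegree ≤ n) :
    ∃ g ∈ G, ∃ α : Fin 6 →₀ ℕ, coeff α (pull (c.A g) (c.pt g) P) ≠ 0 ∧
      ∀ i, res3 i α ∈ c.EE G γ n g i := by
  classical
  choose r hr1 hr2 using fun g : ι => key_order (c.pt g) P hP n hdeg
  obtain ⟨g, hgG, hmin, hlt⟩ := key_min G hG (fun g => r g + γ g)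
  obtain ⟨t, ht⟩ : ∃ t, t = r g + γ g := ⟨_, rfl⟩
  have hmlt : ∀ g' ∈ G, mlt γ t g g' ≤ r g' := by
    intro g' hg'
    unfold mlt
    have h1 : r g + γ g ≤ r g' + γ g' := hmin g' hg'
    by_cases h : g' < g
    · rw [if_pos h]
      have h2 : r g + γ g + 1 ≤ r g' + γ g' := hlt g' hg' h
      omega
    · rw [if_neg h]
      omega
  obtain ⟨f, hf⟩ : ∃ f, f = pull (c.A g) (c.pt g) P := ⟨_, rfl⟩
  have hfdeg : f.totalDegree ≤ n := by
    rw [hf]
    exact (pull_totalDegree_le _ _ _).trans hdeg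
  -- the orders of `f`
  have hfm : ∀ g' ∈ G, ∀ z : Fin 6 → ℝ, (c.A g).mulVec z = c.pt g' - c.pt g → f ∈ ptI z ^ (mlt γ t g g') := by
    intro g' hg' z hz
    rw [hf]
    refine pull_mem (c.A g) (c.pt g) z _ P ?_
    rw [hz, sub_add_cancel]
    exact Ideal.pow_le_pow_right (hmlt g' hg') (hr1 g')
  have hf0 : f ∉ ptI (0 : Fin 6 → ℝ) ^ (r g + 1) := by
    intro h
    apply hr2 g
    have h1 : pull (c.Ai g) (-((c.Ai g).mulVec (c.pt g))) f ∈ ptI (c.pt g) ^ (r g + 1) := by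
      refine pull_mem _ _ _ _ f ?_
      rw [add_neg_cancel]
      exact h
    rw [hf, pull_pull, c.hA g, Matrix.mulVec_neg, Matrix.mulVec_mulVec, c.hA g, Matrix.one_mulVec,
      neg_add_cancel, pull_one] at h1
    exact h1
  have hf1 : f ∈ ptI (0 : Fin 6 → ℝ) ^ (r g) := by
    have h1 := hfm g hgG 0 (by rw [Matrix.mulVec_zero, sub_self])
    have h2 : mlt γ t g g = r g := by
      unfold mlt
      rw [if_neg (lt_irrefl g), ht]
      omega
    rwa [h2] at h1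
  rw [mem_zero_pow_iff] at hf0 hf1
  push Not at hf0
  obtain ⟨α₀, hα₀, hα₀'⟩ := hf0
  have hdg : ∀ α : Fin 6 →₀ ℕ, coeff α f ≠ 0 → r g ≤ ∑ e, α e := by
    intro α hα
    by_contra hcon
    exact hα (hf1 α (not_le.1 hcon))
  -- the exponent of largest weight
  have hne : (f.support.filter (fun α => ∑ e, α e = r g)).Nonempty := by
    refine ⟨α₀, Finset.mem_filter.2 ⟨mem_support_iff.2 hα₀', ?_⟩⟩
    have := hdg α₀ hα₀'
    omega
  obtain ⟨α, hα, hmax⟩ := Finset.exists_max_image _ (fun α : Fin 6 →₀ ℕ => ∑ e, α e * (n + 1) ^ e.val) hne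
  rw [Finset.mem_filter, mem_support_iff] at hα
  refine ⟨g, hgG, α, by rw [← hf]; exact hα.1, fun i => ?_⟩
  -- the vertex `i`
  obtain ⟨δ, hδ⟩ : ∃ δ, δ = off3 i α := ⟨_, rfl⟩
  obtain ⟨s, hs⟩ : ∃ s, s = ∑ e, δ e := ⟨_, rfl⟩
  have hdec : (res3 i α).mapDomain (tri i) + δ = α := by rw [hδ]; exact mapDomain_tri i α
  have hsum : ∀ β : Fin 3 →₀ ℕ, ∑ e, (β.mapDomain (tri i) + δ) e = deg3 β + s := by
    intro β
    simp only [Finsupp.add_apply]
    rw [Finset.sum_add_distrib, deg_mapDomain_tri, hs]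
  have hwt : ∀ β : Fin 3 →₀ ℕ, ∑ e, (β.mapDomain (tri i) + δ) e * (n + 1) ^ e.val =
      wt3 n i β + ∑ e, δ e * (n + 1) ^ e.val := by
    intro β
    simp only [Finsupp.add_apply, add_mul]
    rw [Finset.sum_add_distrib, wt_mapDomain_tri]
  have hrs : deg3 (res3 i α) + s = r g := by rw [← hsum, hdec, hα.2]
  obtain ⟨q, hq1, hq2, hq3⟩ := keyA i δ f
  refine ⟨t - s, by omega, by omega, q, ?_, ?_, ?_⟩
  · refine Submodule.mem_inf.2 ⟨?_, ?_⟩
    · rw [mem_restrictTotalDegree]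
      exact hq1.trans hfdeg
    · rw [Submodule.mem_iInf]
      intro g'
      rw [Submodule.mem_iInf]
      intro hg'
      rw [Submodule.restrictScalars_mem]
      have hg'' : g' ∈ G ∧ ∃ i', c.fl g' i' = c.fl g i := by
        unfold Conf.inc at hg'
        exact Finset.mem_filter.1 hg'
      obtain ⟨hg'G, i', hi'⟩ := hg''
      have hM : c.M (c.fl g i) = c.A g * Ext i * c.Bi g i := by
        rw [← c.hMB, Matrix.mul_assoc, c.hB, Matrix.mul_one]
      have hX : (c.A g).mulVec ((Ext i).mulVec (c.Z g i g')) = c.pt g' - c.pt g := by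
        rw [c.hpt g i g' i' hi'.symm, hM]
        unfold Conf.Z
        rw [Matrix.mulVec_mulVec, Matrix.mulVec_mulVec]
      have h1 := hq2 (c.Z g i g') _ (hfm g' hg'G _ hX)
      refine Ideal.pow_le_pow_right ?_ h1
      rw [← hs]
      unfold mlt
      split_ifs <;> omega
  · rw [hq3, hdec]
    exact hα.1
  · intro β' hβ' hc
    rw [hq3] at hc
    have h1 : ∑ e, (β'.mapDomain (tri i) + δ) e * (n + 1) ^ e.val ≤ ∑ e, α e * (n + 1) ^ e.val :=
      hmax (β'.mapDomain (tri i) + δ) (Finset.mem_filter.2 ⟨mem_support_iff.2 hc, by rw [hsum, hβ', hrs]⟩)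
    rw [hwt] at h1
    have h2 := hwt (res3 i α)
    rw [hdec] at h2
    rw [h2] at h1
    omega

end Vale.Agent.P054.J
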