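import Vale.Agent.P054.J.PtI
import Vale.Agent.P054.J.KeyB

/-!
Block J, file Key: a nonzero polynomial has a nonzero coefficient in the exponent sets.

PROOF.  For `g ∈ G` let `r g` be the order of `P` at `pt g` (`P ∈ ptI (pt g) ^ (r g)`,
`P ∉ ptI (pt g) ^ (r g + 1)`; it exists and `r g ≤ n` by `not_mem_of_degree`).  Let
`t = min_{g ∈ G} (r g + γ g)` and let `g` be the smallest element of `G` attaining it.  Then
`P ∈ ptI (pt g') ^ (mlt γ t g g')` for all `g' ∈ G` (for `g' < g`: `r g' + γ g' ≥ t + 1`).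
Put `f = pull (A g) (pt g) P`; by `pull_mem` (`A g *ᵥ X g' + pt g = pt g'` for
`X g' = Ai g *ᵥ (pt g' - pt g)`) `f ∈ ptI (X g') ^ (mlt γ t g g')`, and `f ∉ ptI 0 ^ (r g + 1)`
(apply `pull (Ai g) (-(Ai g *ᵥ pt g))` back, `pull_pull`, `pull_one`), so by `mem_zero_pow_iff`
there is an exponent `α` with `∑ α = r g`, `coeff α f ≠ 0` (all coefficients of smaller degree
vanish); choose the one with the largest weight `∑_e α e * (n+1)^e`.
Fix `i`.  Let `δ` = `α` off `tri i`, `s = ∑ δ`, and let `f1` be the iterated `pderiv` of `f` with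
multiplicities `δ`; by `pderiv_mem`, `f1 ∈ ptI (X g') ^ (mlt γ t g g' - s)`.
Put `q = pull (Ext i) 0 f1`.  For `g' ∈ inc G (fl g i)`: `X g' = Ext i *ᵥ (Z g i g')` (from `hpt`,
`hMB`, `hA'`), so `q ∈ ptI (Z g i g') ^ (mlt γ t g g' - s)`, and
`mlt γ t g g' - s ≥ mlt γ (t - s) g g'` as natural numbers (`t ≥ s`: `s ≤ r g ≤ t`).
The coefficient of `β` (exponent of `tri i`) in `q` is a positive multiple (product of factorials
quotients, depending only on δ: it is `∏ (δ e)!` ) of the coefficient of `β + δ` in `f`.  Hence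
`coeff (res3 i α) q ≠ 0`, and if `deg3 β' = deg3 (res3 i α)` and `coeff β' q ≠ 0` then `β' + δ` has
degree `r g` and nonzero coefficient in `f`, so its weight is at most the weight of `α`, i.e.
`wt3 n i β' ≤ wt3 n i (res3 i α)`.  The time of `res3 i α` in the definition of `EE` is
`t - s = deg3 (res3 i α) + γ g`.  `totalDegree q ≤ n`.
-/

set_option linter.all false

namespace Vale.Agent.P054.J

open MvPolynomial Finset

theorem key {ι κ : Type} [LinearOrder ι] (c : Conf ι κ) (G : Finset ι) (hG : G.Nonempty)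
    (γ : ι → ℕ) (n : ℕ) (P : MvPolynomial (Fin 6) ℝ) (hP : P ≠ 0) (hdeg : P.totalDegree ≤ n) :
    ∃ g ∈ G, ∃ α : Fin 6 →₀ ℕ, coeff α (pull (c.A g) (c.pt g) P) ≠ 0 ∧
      ∀ i, res3 i α ∈ c.EE G γ n g i := key' c G hG γ n P hP hdeg

end Vale.Agent.P054.J
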