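import Vale.Agent.P054.J.PtIB

/-!
Block J, file KeyA (helper275): iterated derivatives and restriction to the coordinate space of a
vertex; interface for `key`.
-/

set_option linter.all false

namespace Vale.Agent.P054.J

open MvPolynomial Finset

theorem tri_inj (i : Fin 4) : Function.Injective (tri i) := by
  revert i
  decide

theorem totalDegree_pderiv_le' {σ : Type} (e : σ) (f : MvPolynomial σ ℝ) :
    (pderiv e f).totalDegree ≤ f.totalDegree := by
  refine Finset.sup_le fun m hm => ?_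
  have h1 : coeff m (pderiv e f) ≠ 0 := mem_support_iff.1 hm
  rw [coeff_pderiv] at h1
  have h2 : coeff (m + Finsupp.single e 1) f ≠ 0 := left_ne_zero_of_mul h1
  have h3 := le_totalDegree (mem_support_iff.2 h2)
  rw [Finsupp.sum_add_index' (fun _ => rfl) (fun _ _ _ => rfl)] at h3
  exact (Nat.le_add_right _ _).trans h3

theorem pderiv_mem' {σ : Type} (x : σ → ℝ) (e : σ) (k : ℕ) (P : MvPolynomial σ ℝ)
    (h : P ∈ ptI x ^ k) : pderiv e P ∈ ptI x ^ (k - 1) := by
  rcases k with _ | k
  · simp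
  · exact pderiv_mem x e k P h

/-- iterated derivatives -/
theorem keyA_der (f : MvPolynomial (Fin 6) ℝ) (δ : Fin 6 →₀ ℕ) :
    ∃ f1 : MvPolynomial (Fin 6) ℝ, f1.totalDegree ≤ f.totalDegree ∧
      (∀ (x : Fin 6 → ℝ) (k : ℕ), f ∈ ptI x ^ k → f1 ∈ ptI x ^ (k - ∑ e, δ e)) ∧
      ∀ α : Fin 6 →₀ ℕ, coeff α f1 ≠ 0 ↔ coeff (α + δ) f ≠ 0 := by
  obtain ⟨n, hn⟩ : ∃ n, ∑ e, δ e = n := ⟨_, rfl⟩
  induction n generalizing f δ with
  | zero =>
    have hδ : δ = 0 := by
      ext e
      exact (Finset.sum_eq_zero_iff.1 hn) e (Finset.mem_univ e)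
    subst hδ
    exact ⟨f, le_rfl, fun x k h => by simpa using h, fun α => by rw [add_zero]⟩
  | succ n ih =>
    obtain ⟨e, he⟩ : ∃ e, δ e ≠ 0 := by
      by_contra hcon
      push Not at hcon
      simp [hcon] at hn
    obtain ⟨δ', hδ'⟩ : ∃ δ' : Fin 6 →₀ ℕ, δ = δ' + Finsupp.single e 1 := by
      refine ⟨δ - Finsupp.single e 1, ?_⟩
      rw [tsub_add_cancel_of_le]
      rw [Finsupp.single_le_iff]
      omega
    have hs : ∑ a, δ a = (∑ a, δ' a) + 1 := by
      rw [hδ']
      simp [Finset.sum_add_distrib, Finsupp.single_apply]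
    obtain ⟨f1, h1, h2, h3⟩ := ih (pderiv e f) δ' (by omega)
    refine ⟨f1, h1.trans (totalDegree_pderiv_le' e f), fun x k h => ?_, fun α => ?_⟩
    · have h4 := h2 x (k - 1) (pderiv_mem' x e k f h)
      rw [hs]
      have h5 : k - ((∑ a, δ' a) + 1) = k - 1 - ∑ a, δ' a := by omega
      rw [h5]
      exact h4
    · rw [h3, coeff_pderiv, hδ', ← add_assoc]
      have h6 : (((α + δ') e : ℕ) : ℝ) + 1 ≠ 0 := by positivity
      constructor
      · intro h
        exact left_ne_zero_of_mul h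
      · intro h
        exact mul_ne_zero h h6

theorem pull_Ext_X (i : Fin 4) (k : Fin 3) : pull (Ext i) 0 (X (tri i k)) = X k := by
  simp only [pull, aeval_X, Pi.zero_apply, map_zero, add_zero, Ext]
  rw [Finset.sum_eq_single k]
  · simp
  · intro b _ hb
    rw [if_neg fun h => hb (tri_inj i h).symm]
    simp
  · simp

theorem pull_Ext_X' (i : Fin 4) (e : Fin 6) (he : ∀ k, e ≠ tri i k) :
    pull (Ext i) 0 (X e) = 0 := by
  simp only [pull, aeval_X, Pi.zero_apply, map_zero, add_zero, Ext]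
  refine Finset.sum_eq_zero fun k _ => ?_
  rw [if_neg (he k)]
  simp

theorem pull_Ext_rename (i : Fin 4) (q : MvPolynomial (Fin 3) ℝ) :
    pull (Ext i) 0 (rename (tri i) q) = q := by
  have h : (pull (Ext i) 0).comp (rename (tri i)) = AlgHom.id ℝ (MvPolynomial (Fin 3) ℝ) := by
    apply MvPolynomial.algHom_ext
    intro k
    rw [AlgHom.comp_apply, rename_X, pull_Ext_X]
    rfl
  exact DFunLike.congr_fun h q

/-- the exponents off the coordinate space of the vertex `i` -/
noncomputable def off3 (i : Fin 4) (α : Fin 6 →₀ ℕ) : Fin 6 →₀ ℕ := by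
  classical exact Finsupp.equivFunOnFinite.symm (fun e => if ∃ k, tri i k = e then 0 else α e)

theorem off3_tri (i : Fin 4) (α : Fin 6 →₀ ℕ) (k : Fin 3) : off3 i α (tri i k) = 0 := by
  classical
  simp [off3]

theorem off3_of (i : Fin 4) (α : Fin 6 →₀ ℕ) {e : Fin 6} (he : ∀ k, e ≠ tri i k) : off3 i α e = α e := by
  classical
  simp only [off3, Finsupp.equivFunOnFinite_symm_apply_apply]
  rw [if_neg]
  rintro ⟨k, hk⟩
  exact he k hk.symm

theorem mapDomain_tri_apply (i : Fin 4) (β : Fin 3 →₀ ℕ) (k : Fin 3) :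
    (β.mapDomain (tri i)) (tri i k) = β k := Finsupp.mapDomain_apply (tri_inj i) β k

theorem mapDomain_tri_of (i : Fin 4) (β : Fin 3 →₀ ℕ) {e : Fin 6} (he : ∀ k, e ≠ tri i k) :
    (β.mapDomain (tri i)) e = 0 := by
  refine Finsupp.mapDomain_notin_range β e ?_
  rintro ⟨k, hk⟩
  exact he k hk.symm

/-- decomposition of an exponent -/
theorem mapDomain_tri (i : Fin 4) (α : Fin 6 →₀ ℕ) :
    (res3 i α).mapDomain (tri i) + off3 i α = α := by
  ext e
  rw [Finsupp.add_apply]
  by_cases he : ∃ k, e = tri i k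
  · obtain ⟨k, rfl⟩ := he
    rw [mapDomain_tri_apply, off3_tri, add_zero]
    rfl
  · push Not at he
    rw [mapDomain_tri_of i _ he, off3_of i _ he, zero_add]

theorem sum_mapDomain_tri (i : Fin 4) (β : Fin 3 →₀ ℕ) (g : Fin 6 → ℕ) :
    ∑ e, (β.mapDomain (tri i)) e * g e = ∑ k, β k * g (tri i k) := by
  symm
  refine Finset.sum_of_injOn (tri i) (tri_inj i).injOn (fun _ _ => Finset.mem_coe.2 (Finset.mem_univ _)) ?_ ?_
  · intro e _ he
    rw [mapDomain_tri_of i β, zero_mul]
    intro k hk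
    exact he ⟨k, Finset.mem_coe.2 (Finset.mem_univ k), hk.symm⟩
  · intro k _
    rw [mapDomain_tri_apply]

/-- degree -/
theorem deg_mapDomain_tri (i : Fin 4) (β : Fin 3 →₀ ℕ) : ∑ e, (β.mapDomain (tri i)) e = deg3 β := by
  have h := sum_mapDomain_tri i β (fun _ => 1)
  simpa [deg3] using h

/-- weight -/
theorem wt_mapDomain_tri (n : ℕ) (i : Fin 4) (β : Fin 3 →₀ ℕ) :
    ∑ e, (β.mapDomain (tri i)) e * (n + 1) ^ e.val = wt3 n i β :=
  sum_mapDomain_tri i β (fun e => (n + 1) ^ e.val)

/-- coefficients of the restriction to the coordinate space -/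
theorem coeff_pull_Ext (i : Fin 4) (f : MvPolynomial (Fin 6) ℝ) (β : Fin 3 →₀ ℕ) :
    coeff β (pull (Ext i) 0 f) = coeff (β.mapDomain (tri i)) f := by
  induction f using MvPolynomial.induction_on' with
  | monomial d c =>
    by_cases hd : ∃ e, (∀ k, e ≠ tri i k) ∧ d e ≠ 0
    · obtain ⟨e, he, hde⟩ := hd
      have h1 : monomial d c = monomial (d - Finsupp.single e 1) c * X e := by
        rw [X, monomial_mul, mul_one, tsub_add_cancel_of_le]
        rw [Finsupp.single_le_iff]
        omega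
      have h2 : pull (Ext i) 0 (monomial d c) = 0 := by
        rw [h1, map_mul, pull_Ext_X' i e he, mul_zero]
      rw [h2, coeff_zero, coeff_monomial, if_neg]
      intro h
      have h3 := congrArg (fun t : Fin 6 →₀ ℕ => t e) h
      simp only [mapDomain_tri_of i β he] at h3
      exact hde h3
    · push Not at hd
      have h1 : (res3 i d).mapDomain (tri i) = d := by
        ext e
        by_cases he : ∃ k, e = tri i k
        · obtain ⟨k, rfl⟩ := he
          rw [mapDomain_tri_apply]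
          rfl
        · push Not at he
          rw [mapDomain_tri_of i _ he, hd e he]
      have h2 : pull (Ext i) 0 (monomial d c) = monomial (res3 i d) c := by
        have h3 := pull_Ext_rename i (monomial (res3 i d) c)
        rw [rename_monomial, h1] at h3
        exact h3
      rw [h2, coeff_monomial, coeff_monomial]
      by_cases hb : res3 i d = β
      · rw [if_pos hb, if_pos (by rw [← hb, h1])]
      · rw [if_neg hb, if_neg]
        intro h
        rw [← h1] at h
        exact hb (Finsupp.mapDomain_injective (tri_inj i) h)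
  | add p q hp hq => rw [map_add, coeff_add, coeff_add, hp, hq]

/-- **KeyA**: derivative with multiplicities `δ`, then restriction to the coordinate space `tri i`. -/
theorem keyA (i : Fin 4) (δ : Fin 6 →₀ ℕ) (f : MvPolynomial (Fin 6) ℝ) :
    ∃ q : MvPolynomial (Fin 3) ℝ, q.totalDegree ≤ f.totalDegree ∧
      (∀ (z : Fin 3 → ℝ) (k : ℕ), f ∈ ptI ((Ext i).mulVec z) ^ k → q ∈ ptI z ^ (k - ∑ e, δ e)) ∧
      ∀ β : Fin 3 →₀ ℕ, coeff β q ≠ 0 ↔ coeff (β.mapDomain (tri i) + δ) f ≠ 0 := by
  obtain ⟨f1, h1, h2, h3⟩ := keyA_der f δ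
  refine ⟨pull (Ext i) 0 f1, (pull_totalDegree_le _ _ _).trans h1, fun z k h => ?_, fun β => ?_⟩
  · refine pull_mem (Ext i) 0 z _ f1 ?_
    rw [add_zero]
    exact h2 _ k h
  · rw [coeff_pull_Ext, h3]

end Vale.Agent.P054.J
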