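import Vale.Agent.P054.J.PtIA

/-! Block J, file PtIB: orders of vanishing.
`pderiv_mem`: induction on `k` (Submodule.pow_induction / Leibniz).
`mem_zero_pow_iff`: `ptI 0` is generated by the variables.
`not_mem_of_degree`, `mul_mem_cancel`: translate to the point 0 by `pull 1 x` and compare the lowest
homogeneous components (`MvPolynomial` over a field is a domain; e.g. take the exponent of lowest
degree and, among those, largest for a monomial order / use `homogeneousComponent`). -/

set_option linter.all false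

namespace Vale.Agent.P054.J

open MvPolynomial Finset

theorem pderiv_mem {σ : Type} (x : σ → ℝ) (e : σ) (k : ℕ) (P : MvPolynomial σ ℝ)
    (h : P ∈ ptI x ^ (k + 1)) : pderiv e P ∈ ptI x ^ k := by
  induction k generalizing P with
  | zero => simp
  | succ k ih =>
    rw [pow_succ] at h
    refine Submodule.mul_induction_on h ?_ ?_
    · intro p hp q hq
      rw [Derivation.leibniz]
      refine Ideal.add_mem _ ?_ ?_
      · rw [smul_eq_mul]
        exact Ideal.mul_mem_right _ _ hp
      · rw [smul_eq_mul]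
        have h1 := Ideal.mul_mem_mul (ih p hp) hq
        rw [← pow_succ, mul_comm] at h1
        exact h1
    · intro p q hp hq
      rw [map_add]
      exact Ideal.add_mem _ hp hq

theorem ptI_zero_eq (a : ℕ) : ptI (0 : Fin a → ℝ) = idealOfVars (Fin a) ℝ := by
  ext p
  rw [mem_ptI]
  have h1 := mem_pow_idealOfVars_iff' (σ := Fin a) (R := ℝ) 1 p
  rw [pow_one] at h1
  rw [h1]
  constructor
  · intro h y hy
    have hy0 : y = 0 := by
      have : Finsupp.degree y = 0 := by omega
      exact (Finsupp.degree_eq_zero_iff y).1 this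
    rw [hy0]
    have h2 : eval (0 : Fin a → ℝ) p = constantCoeff p := by
      simp [MvPolynomial.eval_zero]
    rw [h2] at h
    exact h
  · intro h
    have h3 := h 0 (by simp)
    have h2 : eval (0 : Fin a → ℝ) p = constantCoeff p := by
      simp [MvPolynomial.eval_zero]
    rw [h2]
    exact h3

theorem mem_zero_pow_iff {a : ℕ} (p : MvPolynomial (Fin a) ℝ) (k : ℕ) :
    p ∈ ptI (0 : Fin a → ℝ) ^ k ↔ ∀ α : Fin a →₀ ℕ, (∑ i, α i) < k → coeff α p = 0 := by
  rw [ptI_zero_eq, mem_pow_idealOfVars_iff']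
  simp only [Finsupp.degree_eq_sum]

theorem not_mem_of_degree {a : ℕ} (x : Fin a → ℝ) (p : MvPolynomial (Fin a) ℝ) (hp : p ≠ 0)
    (n : ℕ) (hdeg : p.totalDegree ≤ n) : p ∉ ptI x ^ (n + 1) := by
  intro hmem
  apply hp
  have h1 : pull (1 : Matrix (Fin a) (Fin a) ℝ) x p ∈ ptI (0 : Fin a → ℝ) ^ (n + 1) := by
    apply pull_mem
    simpa using hmem
  rw [mem_zero_pow_iff] at h1
  have h2 : pull (1 : Matrix (Fin a) (Fin a) ℝ) x p = 0 := by
    ext α
    rw [coeff_zero]
    by_cases hα : (∑ i, α i) < n + 1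
    · exact h1 α hα
    · apply coeff_eq_zero_of_totalDegree_lt
      refine lt_of_le_of_lt ((pull_totalDegree_le 1 x p).trans hdeg) ?_
      have : (∑ i ∈ α.support, α i) = ∑ i, α i := by
        apply Finset.sum_subset (Finset.subset_univ _)
        intro i _ hi
        simpa using hi
      rw [this]
      omega
  have h3 : pull (1 : Matrix (Fin a) (Fin a) ℝ) (-x)
      (pull (1 : Matrix (Fin a) (Fin a) ℝ) x p) = p := by
    rw [pull_pull]
    have : (1 : Matrix (Fin a) (Fin a) ℝ) * 1 = 1 := by simp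
    rw [this]
    have h4 : (1 : Matrix (Fin a) (Fin a) ℝ).mulVec (-x) + x = 0 := by simp
    rw [h4]
    exact pull_one p
  rw [← h3, h2, map_zero]

theorem mul_mem_cancel {a : ℕ} (x : Fin a → ℝ) (q p : MvPolynomial (Fin a) ℝ) (k : ℕ)
    (hq : eval x q ≠ 0) (h : q * p ∈ ptI x ^ k) : p ∈ ptI x ^ k := by
  have h1 : IsCoprime (Ideal.span {q}) (ptI x) := by
    rw [Ideal.isCoprime_iff_exists]
    refine ⟨C (eval x q)⁻¹ * q, Ideal.mul_mem_left _ _ (Ideal.subset_span rfl),
      1 - C (eval x q)⁻¹ * q, ?_, by ring⟩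
    rw [mem_ptI]
    simp [hq]
  have h2 : IsCoprime (Ideal.span {q}) (ptI x ^ k) := h1.pow_right
  rw [Ideal.isCoprime_iff_exists] at h2
  obtain ⟨i, hi, j, hj, hij⟩ := h2
  rw [Ideal.mem_span_singleton'] at hi
  obtain ⟨c, rfl⟩ := hi
  have h3 : p = c * (q * p) + j * p := by
    calc p = 1 * p := (one_mul p).symm
      _ = (c * q + j) * p := by rw [hij]
      _ = c * (q * p) + j * p := by ring
  rw [h3]
  exact Ideal.add_mem _ (Ideal.mul_mem_left _ _ h) (Ideal.mul_mem_right _ _ hj)

end Vale.Agent.P054.J
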