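import Vale.Agent.P054.J.Defs

/-! Block J, file PtIA: affine substitutions. -/

set_option linter.all false

namespace Vale.Agent.P054.J

open MvPolynomial Finset

theorem mem_ptI {σ : Type} (x : σ → ℝ) (p : MvPolynomial σ ℝ) : p ∈ ptI x ↔ eval x p = 0 := by
  simp [ptI, RingHom.mem_ker]

theorem pull_eval {a b : ℕ} (M : Matrix (Fin b) (Fin a) ℝ) (v : Fin b → ℝ) (z : Fin a → ℝ)
    (P : MvPolynomial (Fin b) ℝ) : eval z (pull M v P) = eval (M.mulVec z + v) P := by
  have h : (eval z).comp (pull M v).toRingHom = eval (M.mulVec z + v) := by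
    apply MvPolynomial.ringHom_ext
    · intro r
      simp [pull]
    · intro j
      simp [pull, Matrix.mulVec, dotProduct]
  exact RingHom.congr_fun h P

theorem pull_pull {a a' b : ℕ} (M : Matrix (Fin b) (Fin a) ℝ) (v : Fin b → ℝ)
    (M' : Matrix (Fin a) (Fin a') ℝ) (v' : Fin a → ℝ) (P : MvPolynomial (Fin b) ℝ) :
    pull M' v' (pull M v P) = pull (M * M') (M.mulVec v' + v) P := by
  have h : (pull M' v').comp (pull M v) = pull (M * M') (M.mulVec v' + v) := by
    apply MvPolynomial.algHom_ext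
    intro j
    simp only [pull, AlgHom.comp_apply, aeval_X, map_add, map_sum, map_mul, algHom_C,
      MvPolynomial.algebraMap_eq, Matrix.mul_apply, Matrix.mulVec, dotProduct, Pi.add_apply,
      mul_add, Finset.mul_sum, Finset.sum_add_distrib, Finset.sum_mul]
    rw [Finset.sum_comm]
    simp only [mul_assoc]
    ring
  exact DFunLike.congr_fun h P

theorem pull_one {a : ℕ} (P : MvPolynomial (Fin a) ℝ) : pull 1 0 P = P := by
  have h : pull (1 : Matrix (Fin a) (Fin a) ℝ) 0 = AlgHom.id ℝ _ := by
    apply MvPolynomial.algHom_ext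
    intro j
    simp only [pull, aeval_X, Pi.zero_apply, map_zero, add_zero, AlgHom.id_apply]
    rw [Finset.sum_eq_single j]
    · simp
    · intro k _ hk
      simp [Matrix.one_apply_ne (Ne.symm hk)]
    · simp
  rw [h]; rfl

theorem pull_totalDegree_le {a b : ℕ} (M : Matrix (Fin b) (Fin a) ℝ) (v : Fin b → ℝ)
    (P : MvPolynomial (Fin b) ℝ) : (pull M v P).totalDegree ≤ P.totalDegree := by
  have hf : ∀ j, ((∑ k, C (M j k) * X k) + C (v j) : MvPolynomial (Fin a) ℝ).totalDegree ≤ 1 := by
    intro j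
    refine (totalDegree_add _ _).trans (max_le ?_ (by simp))
    refine totalDegree_finsetSum_le fun k _ => ?_
    refine (totalDegree_mul _ _).trans ?_
    simp
  rw [pull, aeval_def, eval₂_eq']
  refine totalDegree_finsetSum_le fun d hd => ?_
  refine (totalDegree_mul _ _).trans ?_
  have h1 : (algebraMap ℝ (MvPolynomial (Fin a) ℝ) (coeff d P)).totalDegree = 0 := by
    rw [MvPolynomial.algebraMap_eq]; exact totalDegree_C _
  rw [h1, zero_add]
  refine (totalDegree_finset_prod _ _).trans ?_
  refine le_trans (Finset.sum_le_sum (g := fun i => d i) fun i _ => ?_) ?_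
  · refine (totalDegree_pow _ _).trans ?_
    calc d i * _ ≤ d i * 1 := Nat.mul_le_mul_left _ (hf i)
      _ = d i := mul_one _
  · have := le_totalDegree hd
    rwa [Finsupp.sum_fintype _ _ (fun _ => rfl)] at this

theorem pull_mem {a b : ℕ} (M : Matrix (Fin b) (Fin a) ℝ) (v : Fin b → ℝ) (z : Fin a → ℝ) (k : ℕ)
    (P : MvPolynomial (Fin b) ℝ) (h : P ∈ ptI (M.mulVec z + v) ^ k) :
    pull M v P ∈ ptI z ^ k := by
  have h1 : Ideal.map (pull M v).toRingHom (ptI (M.mulVec z + v)) ≤ ptI z := by
    rw [Ideal.map_le_iff_le_comap]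
    intro q hq
    rw [Ideal.mem_comap, mem_ptI]
    have := pull_eval M v z q
    rw [mem_ptI] at hq
    rw [hq] at this
    exact this
  have h2 := Ideal.mem_map_of_mem (pull M v).toRingHom h
  rw [Ideal.map_pow] at h2
  exact Ideal.pow_right_mono h1 k h2

end Vale.Agent.P054.J
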